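import Vale.Agent.P305E.Arr
import Vale.Agent.P305E.Rand
import Vale.Agent.P305C.Vt

/-!
# A skeleton with short routes of small load: the specifications
-/

namespace Vale.Agent.P305R

open Vale.Agent.P305E Vale.Agent.P305C

/-- A step of a walk: the name of an edge and the direction. -/
abbrev St : Type := ℕ × Bool
/-- An edge of the input: name and two ends. -/
abbrev Ed : Type := ℕ × ℕ × ℕ

/-- Where a step starts. -/
def src (E : ℕ → ℕ × ℕ) (s : St) : ℕ := if s.2 = true then (E s.1).1 else (E s.1).2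
/-- Where a step ends. -/
def dst (E : ℕ → ℕ × ℕ) (s : St) : ℕ := if s.2 = true then (E s.1).2 else (E s.1).1

/-- Walks; `E` gives the ends of the edges. -/
def Walk (E : ℕ → ℕ × ℕ) : ℕ → List St → ℕ → Prop
  | a, [], b => a = b
  | a, s :: w, b => src E s = a ∧ Walk E (dst E s) w b

/-- How often a walk uses an edge. -/
def occ (x : ℕ) (w : List St) : ℕ := (w.map Prod.fst).count x

/-- The skeleton `S` and the routes `P`. -/
structure RouteOK (E : ℕ → ℕ × ℕ) (F : List Ed) (γ Λ : ℕ) (S : List ℕ) (P : ℕ → List St) :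
    Prop where
  nd : S.Nodup
  sub : ∀ s ∈ S, ∃ z ∈ F, z.1 = s ∧ z.2.1 ≠ z.2.2
  walk : ∀ z ∈ F, Walk E z.2.1 (P z.1) z.2.2
  skel : ∀ z ∈ F, ∀ s ∈ P z.1, s.1 ∈ S
  self : ∀ s ∈ S, P s = [(s, true)]
  loop : ∀ z ∈ F, z.2.1 = z.2.2 → P z.1 = []
  hops : ∀ z ∈ F, (P z.1).length ≤ γ
  load : ∀ s, (F.map fun z => occ s (P z.1)).sum ≤ Λ

/-- The length of the routes. -/
def gam (b dep : ℕ) : ℕ := (12 * b + 13) ^ dep
/-- The load of an edge of the skeleton. -/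
def lam (b j dep : ℕ) : ℕ := (16 ^ j * (12 * b + 17)) ^ dep
/-- The time per edge. -/
def tm (b j h dep : ℕ) : ℕ := 4 ^ (j + h + 10) * (b + 1) ^ 2 * (dep + 1) * gam b dep

/-- The router; input `((b, j, h, dep), F)`. -/
def ROUTE : Prop := ∃ f : (ℕ × ℕ × ℕ × ℕ) × List Ed → M (List ℕ × Arr (List St)), Impl f ∧
  ∀ (B d b j h dep : ℕ) (E : ℕ → ℕ × ℕ) (F : List Ed) (V : Finset ℕ), (F.map Prod.fst).Nodup →
    (∀ z ∈ F, E z.1 = z.2 ∧ z.2.1 ∈ V ∧ z.2.2 ∈ V ∧ 2 * z.1 + 1 ≤ B) → F.length ≤ 2 ^ b →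
    d ≤ b → j ≤ b → h ≤ b → b < h * dep → 2 ^ (10 * (b + 1)) ≤ B →
    Vt d B (f ((b, j, h, dep), F)) fun r s => RouteOK E F (gam b dep) (lam b j dep) r.1 r.2.get ∧
      2 ^ j * r.1.length ≤ 200 * dep * (b + 2) * (F.length + 4 ^ j * (V.card + 1)) ∧
      s ≤ tm b j h dep * (F.length + 1)

/-! ### Blocks -/

/-- An edge of a level: two ends, name, and the walks from the two original ends. -/
abbrev It : Type := ℕ × ℕ × ℕ × List St × List St
/-- An edge of a forest: child, parent, and the walk it stands for. -/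
abbrev Rc : Type := ℕ × ℕ × List St

/-- The list of all ends. -/
def ends (F : List It) : List ℕ := F.flatMap fun z => [z.1, z.2.1]

/-- Splitting of vertices into copies of degree at most `D`, with new names below `n`. -/
def SPLIT : Prop := ∃ f : ℕ × List It → M (List It), Impl f ∧
  ∀ (c : Cx) (D : ℕ) (F : List It) (V : Finset ℕ), 1 ≤ D → (∀ x ∈ ends F, x ∈ V) →
    2 * F.length ≤ c.B → Tri c (f (D, F)) fun F' t => ∃ (π : ℕ → ℕ) (n : ℕ),
      F = F'.map (fun z => (π z.1, π z.2.1, z.2.2)) ∧ (∀ x ∈ ends F', x < n) ∧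
      (∀ x, (ends F').count x ≤ D) ∧ D * n ≤ D * V.card + 2 * F.length ∧ n ≤ 2 * F.length ∧
      t ≤ 10 * (F.length + 1)

/-- The edge joins two different parts (labels `0` and `1` are not parts). -/
def Cross (χ : ℕ → ℕ) (z : It) : Prop := 2 ≤ χ z.1 ∧ 2 ≤ χ z.2.1 ∧ χ z.1 ≠ χ z.2.1

instance (χ : ℕ → ℕ) (z : It) : Decidable (Cross χ z) := by unfold Cross; infer_instance

/-- Labellings that are not crossed by `Bs` are crossed by few edges of `F`. -/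
def Good (n Y : ℕ) (F Bs : List It) : Prop :=
  ∀ χ : ℕ → ℕ, (∀ v, χ v < n + 2) → (∀ z ∈ Bs, ¬ Cross χ z) → F.countP (Cross χ ·) ≤ Y

/-- Sampling with probability `2 ^ (-j)`. -/
def SAMPLE : Prop := ∃ f : ℕ × List It → M (List It × List It), Impl f ∧
  ∀ (B d b j n : ℕ) (F : List It), (∀ x ∈ ends F, x < n) → n ≤ 2 ^ (b + 1) → F.length ≤ 2 ^ b →
    d ≤ b → 2 ^ j ≤ B → Vt d B (f (j, F)) fun r s => (r.1 ++ r.2).Perm F ∧
      2 ^ j * r.1.length ≤ 2 * F.length + 2 ^ j * (b + 2) ∧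
      Good n (2 ^ j * ((b + 2) * n + b + 2)) F r.1 ∧ s ≤ 10 * (j + 1) * (F.length + 1)

/-- Children come before their parents. -/
structure Fo (ord : List Rc) : Prop where
  nd : (ord.map Prod.fst).Nodup
  ne : ∀ r ∈ ord, r.2.1 ≠ r.1
  pw : ord.Pairwise fun r r' => r'.2.1 ≠ r.1

/-- The clusters: `cl v = 0` not seen, `cl v = 1` discarded, `cl v = c + 2` in the ball about `c`. -/
structure Balls (n rad cap : ℕ) (adj : ℕ → List (ℕ × List St)) (use wt : ℕ → ℕ) (st : List ℕ)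
    (cl : ℕ → ℕ) (ord : List Rc) (dep : ℕ → ℕ) : Prop where
  fo : Fo ord
  edge : ∀ r ∈ ord, (r.1, r.2.2) ∈ adj r.2.1 ∧ 2 ≤ cl r.1 ∧ cl r.2.1 = cl r.1 ∧
    dep r.1 = dep r.2.1 + 1
  mem : ∀ v, 2 ≤ cl v → v < n ∧ use v < cap ∧ dep v ≤ rad ∧ cl (cl v - 2) = cl v ∧
    (cl v = v + 2 ↔ v ∉ ord.map Prod.fst)
  nbr : ∀ u, 2 ≤ cl u → ∀ p ∈ adj u, cap ≤ use p.1 ∨ cl p.1 = 1 ∨ cl p.1 = cl u
  lost : 8 * ∑ v ∈ (Finset.range n).filter (fun v => cl v = 1), wt v ≤ ∑ v ∈ Finset.range n, wt v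
  seen : ∀ s ∈ st, cap ≤ use s ∨ 1 ≤ cl s

/-- Growing balls; input `((b, cap), adj, use, wt, st)`. -/
def BALLS : Prop := ∃ f : (ℕ × ℕ) × Arr (List (ℕ × List St)) × Arr ℕ × Arr ℕ × List ℕ →
    M (Arr ℕ × List Rc), Impl f ∧
  ∀ (c : Cx) (b cap n D : ℕ) (adj : Arr (List (ℕ × List St))) (use wt : Arr ℕ) (st : List ℕ),
    (∀ u, ∀ p ∈ adj.get u, p.1 < n ∧ ∃ w, (u, w) ∈ adj.get p.1) → (∀ u, (adj.get u).length ≤ D) →
    (∀ s ∈ st, s < n ∧ 1 ≤ wt.get s) → ∑ v ∈ Finset.range n, wt.get v ≤ 2 ^ (b + 1) →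
    n ≤ 2 ^ (b + 1) → 2 ^ (b + 5) ≤ c.B →
    Tri c (f ((b, cap), adj, use, wt, st)) fun r t =>
      (∃ dep, Balls n (6 * (b + 1)) cap adj.get use.get wt.get st r.1.get r.2 dep) ∧
      t ≤ 40 * (D + b + 1) * (n + st.length + 1)

/-- `Up ord x l y`: the edges of `l` (last one first) lead from `x` up to `y`. -/
inductive Up (ord : List Rc) (x : ℕ) : List Rc → ℕ → Prop
  | nil : Up ord x [] x
  | cons {l : List Rc} {r : Rc} : Up ord x l r.1 → r ∈ ord → Up ord x (r :: l) r.2.1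

/-- The pieces: the token `q.1` at the vertex `q.2` belongs to the piece `loc q.1` with root
`rt (loc q.1)`. -/
structure Pieces (W : ℕ) (tok : List (ℕ × ℕ)) (ord : List Rc) (loc : ℕ → ℕ × Bool)
    (up : ℕ → List Rc) (rt : ℕ × Bool → ℕ) : Prop where
  path : ∀ q ∈ tok, Up ord q.2 (up q.1) (rt (loc q.1))
  opn : ∀ q ∈ tok, (loc q.1).2 = false → rt (loc q.1) = (loc q.1).1 ∧
    (loc q.1).1 ∉ ord.map Prod.fst
  cls : ∀ q ∈ tok, (loc q.1).2 = true → (∃ r ∈ ord, r.1 = (loc q.1).1 ∧ r.2.1 = rt (loc q.1)) ∧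
    W ≤ tok.countP fun q' => loc q'.1 = loc q.1
  small : ∀ P, (tok.countP fun q => loc q.1 = P) ≤ 2 * W
  same : ∀ q ∈ tok, ∀ q' ∈ tok, ∀ r ∈ up q.1, ∀ r' ∈ up q'.1, r.1 = r'.1 → loc q.1 = loc q'.1

/-- Cutting a forest into pieces; input `(W, tok, ord)`. -/
def PIECES : Prop := ∃ f : ℕ × List (ℕ × ℕ) × List Rc → M (Arr (ℕ × Bool) × Arr (List Rc)),
    Impl f ∧ ∀ (c : Cx) (W : ℕ) (tok : List (ℕ × ℕ)) (ord : List Rc), (tok.map Prod.fst).Nodup →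
    (∀ x, (tok.map Prod.snd).count x < W) → Fo ord → 2 * W ≤ c.B →
    Tri c (f (W, tok, ord)) fun r t => (∃ rt, Pieces W tok ord r.1.get r.2.get rt) ∧
      t ≤ 20 * (W + 1) * (ord.length + tok.length + 1)

end Vale.Agent.P305R
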