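import Vale.Agent.P305R.Defs
import Vale.Agent.P305CV.Dij

/-!
# The router: growing balls
-/

namespace Vale.Agent.P305R

open Vale.Agent.P305E Vale.Agent.P305CV

namespace Bl

/-- Adjacency lists. -/
abbrev Adj : Type := Arr (List (ℕ × List St))
/-- Labels and a list of records. -/
abbrev LR : Type := Arr ℕ × List Rc
/-- Labels, forest, last layer and weight of the ball. -/
abbrev LS : Type := Arr ℕ × List Rc × List Rc × ℕ

/-- A neighbour is visited. -/
def visit (cap : ℕ) (use : Arr ℕ) (u : ℕ) (q : LR) (p : ℕ × List St) : LR :=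
  if q.1.get p.1 = 0 ∧ use.get p.1 < cap then (q.1.set p.1 1, (p.1, u, p.2) :: q.2) else q

/-- The next layer. -/
def scan (cap : ℕ) (adj : Adj) (use cl : Arr ℕ) (fr : List Rc) : M LR :=
  foldM (fun q r => foldP (visit cap use r.1) q (adj.get r.1)) (cl, []) fr

/-- The next layer is accepted or discarded. -/
def layer (cap : ℕ) (adj : Adj) (use wt : Arr ℕ) (x : ℕ) (σ : LS) : M (LS ⊕ LR) :=
  scan cap adj use σ.1 σ.2.2.1 >>= fun q => sumP (fun r => wt.get r.1) q.2 >>= fun w =>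
    if σ.2.2.2 < 8 * w then
      foldP (fun (A : Arr ℕ) (r : Rc) => A.set r.1 x) q.1 q.2 >>= fun cl =>
        appendP q.2 σ.2.1 >>= fun ord => num (σ.2.2.2 + w) >>= fun W =>
          pure (.inl (cl, ord, q.2, W))
    else pure (.inr (q.1, σ.2.1))

/-- A ball about `s`. -/
def start (N cap : ℕ) (adj : Adj) (use wt : Arr ℕ) (σ : LR) (s : ℕ) : M LR :=
  if σ.1.get s = 0 ∧ use.get s < cap then num (s + 2) >>= fun x =>
    loopM (layer cap adj use wt x) N (σ.1.set s x, σ.2, [(s, s, [])], wt.get s)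
  else pure σ

/-- The program. -/
def ballsP (x : (ℕ × ℕ) × Adj × Arr ℕ × Arr ℕ × List ℕ) : M LR :=
  foldM (start (2 ^ (x.1.1 + 1) + 1) x.1.2 x.2.1 x.2.2.1 x.2.2.2.1) (.const 0, []) x.2.2.2.2

@[fun_prop] theorem impl_scan {α : Type} [Rep α] {cap : α → ℕ} {adj : α → Adj} {use cl : α → Arr ℕ}
    {fr : α → List Rc} (h1 : Pure cap) (h2 : Pure adj) (h3 : Pure use) (h4 : Pure cl)
    (h5 : Pure fr) : Impl fun x => scan (cap x) (adj x) (use x) (cl x) (fr x) := by
  unfold scan visit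
  fun_prop

theorem impl_ballsP : Impl ballsP := by
  unfold ballsP start layer
  fun_prop

variable {c : Cx} {n rad cap D : ℕ} {adj : Adj} {use wt cl : Arr ℕ}

/-- The state of a scan. -/
structure SI (cap : ℕ) (adj : Adj) (use cl : Arr ℕ) (U : List ℕ) (q : LR) : Prop where
  nd : (q.2.map Prod.fst).Nodup
  lab : ∀ v, q.1.get v = if v ∈ q.2.map Prod.fst then 1 else cl.get v
  new : ∀ r ∈ q.2, cl.get r.1 = 0 ∧ use.get r.1 < cap ∧ r.2.1 ∈ U ∧ (r.1, r.2.2) ∈ adj.get r.2.1

theorem visit_ok {U : List ℕ} {u : ℕ} (hu : u ∈ U) : ∀ (l : List (ℕ × List St)) (q q' : LR),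
    (∀ p ∈ l, p ∈ adj.get u) → SI cap adj use cl U q → l.foldl (visit cap use u) q = q' →
    SI cap adj use cl U q' ∧ (∀ v, q.1.get v ≠ 0 → q'.1.get v ≠ 0) ∧
      ∀ p ∈ l, cap ≤ use.get p.1 ∨ q'.1.get p.1 ≠ 0
  | [], q, _, _, h, rfl => ⟨h, fun _ h => h, by simp⟩
  | p :: l, q, q', hl, h, e => by
    have key : SI cap adj use cl U (visit cap use u q p) ∧
        (∀ v, q.1.get v ≠ 0 → (visit cap use u q p).1.get v ≠ 0) ∧
        (cap ≤ use.get p.1 ∨ (visit cap use u q p).1.get p.1 ≠ 0) := by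
      unfold visit
      split_ifs with g
      · have g1 := h.lab p.1
        have g2 : p.1 ∉ q.2.map Prod.fst := fun a => by rw [if_pos a] at g1; omega
        rw [if_neg g2] at g1
        refine ⟨⟨List.nodup_cons.2 ⟨g2, h.nd⟩, fun v => ?_, fun r hr => ?_⟩, fun v hv => ?_,
          Or.inr (by simp)⟩
        · simp only [Arr.get_set, List.map_cons, List.mem_cons, h.lab v]
          by_cases a : v = p.1 <;> simp only [a, true_or, false_or, if_true, if_false]
        · rcases List.mem_cons.1 hr with rfl | hr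
          · exact ⟨g1 ▸ g.1, g.2, hu, hl p List.mem_cons_self⟩
          · exact h.new r hr
        · simp only [Arr.get_set]
          split_ifs <;> omega
      · exact ⟨h, fun _ h => h, by omega⟩
    obtain ⟨a1, a2, a3⟩ := visit_ok hu l _ q' (fun p hp => hl p (List.mem_cons_of_mem _ hp)) key.1 e
    refine ⟨a1, fun v hv => a2 v (key.2.1 v hv), fun p' hp => ?_⟩
    rcases List.mem_cons.1 hp with rfl | hp
    · exact key.2.2.imp id (a2 _)
    · exact a3 p' hp

theorem scan_tri (hD : ∀ u, (adj.get u).length ≤ D) (fr : List Rc) :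
    Tri c (scan cap adj use cl fr) fun q t => SI cap adj use cl (fr.map Prod.fst) q ∧
      (∀ r ∈ fr, ∀ p ∈ adj.get r.1, cap ≤ use.get p.1 ∨ q.1.get p.1 ≠ 0) ∧
      t ≤ (D + 1) * fr.length := by
  refine Tri.foldM (fun (pre : List Rc) (q : LR) t => SI cap adj use cl (fr.map Prod.fst) q ∧
    (∀ r ∈ pre, ∀ p ∈ adj.get r.1, cap ≤ use.get p.1 ∨ q.1.get p.1 ≠ 0) ∧
    t ≤ (D + 1) * pre.length) ⟨⟨by simp, by simp, by simp⟩, by simp, by simp⟩ ?_
  rintro pre r rest q t e ⟨a1, a2, a3⟩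
  obtain ⟨b1, b2, b3⟩ := visit_ok (u := r.1) (List.mem_map_of_mem (by simp [e])) _ q _
    (fun _ h => h) a1 rfl
  have := hD r.1
  simp only [Tri_foldP, List.length_append, List.length_singleton, mul_add, mul_one]
  refine ⟨b1, fun r' hr p hp => ?_, by omega⟩
  rcases List.mem_append.1 hr with hr | hr
  · exact (a2 r' hr p hp).imp id (b2 _)
  · exact b3 p (List.mem_singleton.1 hr ▸ hp)

theorem foldl_set (x v : ℕ) : ∀ (l : List Rc) (A : Arr ℕ),
    (l.foldl (fun (A : Arr ℕ) (r : Rc) => A.set r.1 x) A).get v =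
      if v ∈ l.map Prod.fst then x else A.get v
  | [], A => by simp
  | r :: l, A => by
    rw [List.foldl_cons, foldl_set x v l, Arr.get_set, List.map_cons]
    by_cases h : v = r.1 <;> simp only [List.mem_cons, h, true_or, false_or, if_true, if_false,
      ite_self]

theorem sv_list {vs : List ℕ} (f : ℕ → ℕ) : ∀ l : List Rc, (l.map Prod.fst).Nodup →
    (∀ r ∈ l, r.1 ∈ vs) → sv vs f (· ∈ l.map Prod.fst) = (l.map fun r => f r.1).sum
  | [], _, _ => sv_false (by simp)
  | r :: l, h, h' => by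
    rw [List.map_cons, List.nodup_cons] at h
    rw [sv_add (T' := fun u => u = r.1 ∧ True) (T'' := (· ∈ l.map Prod.fst))
      (fun v _ => by rw [List.map_cons, List.mem_cons, and_true]) (fun v _ e => e.1 ▸ h.1),
      sv_single (h' r List.mem_cons_self), sv_list f l h.2 fun r hr =>
        h' r (List.mem_cons_of_mem _ hr)]
    simp

/-- The invariant; the neighbours of the vertices of `fr` have not been looked at. -/
structure BI (n rad cap : ℕ) (adj : Adj) (use wt : Arr ℕ) (cl : ℕ → ℕ) (ord : List Rc)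
    (dep : ℕ → ℕ) (fr : List ℕ) (W : ℕ) : Prop where
  fo : Fo ord
  edge : ∀ r ∈ ord, (r.1, r.2.2) ∈ adj.get r.2.1 ∧ 2 ≤ cl r.1 ∧ cl r.2.1 = cl r.1 ∧
    dep r.1 = dep r.2.1 + 1
  mem : ∀ v, 2 ≤ cl v → use.get v < cap ∧ dep v ≤ rad ∧ cl (cl v - 2) = cl v ∧
    (cl v = v + 2 ↔ v ∉ ord.map Prod.fst)
  nbr : ∀ u, 2 ≤ cl u → u ∉ fr → ∀ p ∈ adj.get u, cap ≤ use.get p.1 ∨ cl p.1 = 1 ∨ cl p.1 = cl u
  lt : ∀ v, cl v ≠ 0 → v < n
  lost : 8 * sv (List.range n) wt.get (cl · = 1) + W ≤ sv (List.range n) wt.get (2 ≤ cl ·)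

theorem few_layers {b k W : ℕ} (h : 9 ^ k ≤ 8 ^ k * W) (hW : W ≤ 2 ^ (b + 1)) :
    k < 6 * (b + 1) := by
  by_contra hk
  obtain ⟨j, rfl⟩ := Nat.exists_eq_add_of_le (not_lt.1 hk)
  have h1 : (8 ^ 6 * 2) ^ (b + 1) < (9 ^ 6) ^ (b + 1) :=
    Nat.pow_lt_pow_left (by norm_num) (by omega)
  have h2 : 8 ^ j ≤ 9 ^ j := Nat.pow_le_pow_left (by norm_num) _
  have h3 := h.trans (Nat.mul_le_mul_left _ hW)
  rw [mul_pow, ← pow_mul, ← pow_mul] at h1
  rw [pow_add, pow_add, mul_right_comm] at h3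
  exact absurd h3 (not_le.2 (Nat.mul_lt_mul_of_lt_of_le h1 h2 (by positivity)))

theorem layer_tri {b s k : ℕ} {σ : LS} {dep : ℕ → ℕ}
    (hs : ∀ u, ∀ p ∈ adj.get u, p.1 < n ∧ ∃ w, (u, w) ∈ adj.get p.1)
    (hD : ∀ u, (adj.get u).length ≤ D)
    (hw : sv (List.range n) wt.get (fun _ => True) ≤ 2 ^ (b + 1)) (hB : 2 ^ (b + 1) ≤ c.B)
    (h : BI n (6 * (b + 1)) cap adj use wt σ.1.get σ.2.1 dep (σ.2.2.1.map Prod.fst) σ.2.2.2)
    (hf : ∀ r ∈ σ.2.2.1, σ.1.get r.1 = s + 2 ∧ dep r.1 = k) (h0 : σ.1.get s = s + 2)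
    (hk : k < 6 * (b + 1)) : Tri c (layer cap adj use wt (s + 2) σ) fun o t => ∃ (cl : Arr ℕ)
      (m : ℕ), (∀ v, σ.1.get v ≠ 0 → cl.get v = σ.1.get v) ∧
      sv (List.range n) (fun _ => 1) (cl.get · ≠ 0) =
        sv (List.range n) (fun _ => 1) (σ.1.get · ≠ 0) + m ∧
      t ≤ (D + 1) * σ.2.2.1.length + 3 * m ∧
      Sum.elim (fun τ : LS => τ.1 = cl ∧ τ.2.2.1.length = m ∧ 9 * σ.2.2.2 < 8 * τ.2.2.2 ∧ ∃ dep',
          BI n (6 * (b + 1)) cap adj use wt τ.1.get τ.2.1 dep' (τ.2.2.1.map Prod.fst) τ.2.2.2 ∧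
          ∀ r ∈ τ.2.2.1, τ.1.get r.1 = s + 2 ∧ dep' r.1 = k + 1)
        (fun τ : LR => τ.1 = cl ∧ BI n (6 * (b + 1)) cap adj use wt τ.1.get τ.2 dep [] 0) o := by
  obtain ⟨cl, ord, fr, W⟩ := σ
  simp only at h hf h0 ⊢
  refine (scan_tri hD fr).bind ?_
  rintro ⟨cl', nx⟩ t ⟨⟨a1, a2, a3⟩, a4, a5⟩
  simp only at a1 a2 a3 a4
  have z : ∀ v ∈ nx.map Prod.fst, cl.get v = 0 ∧ use.get v < cap ∧ v < n := fun v hv => by
    obtain ⟨r, hr, rfl⟩ := List.mem_map.1 hv
    exact ⟨(a3 r hr).1, (a3 r hr).2.1, (hs _ _ (a3 r hr).2.2.2).1⟩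
  have sl := fun f => sv_list (vs := List.range n) f nx a1 fun r hr =>
    List.mem_range.2 (z _ (List.mem_map_of_mem hr)).2.2
  have par : ∀ r ∈ nx, cl.get r.2.1 = s + 2 ∧ dep r.2.1 = k := fun r hr => by
    obtain ⟨r', hr', e⟩ := List.mem_map.1 (a3 r hr).2.2.1
    exact e ▸ hf r' hr'
  have gen : ∀ (y : ℕ) (g : Arr ℕ), y = 1 ∨ y = s + 2 →
      (∀ v, g.get v = if v ∈ nx.map Prod.fst then y else cl.get v) →
      (∀ v, cl.get v ≠ 0 → g.get v = cl.get v) ∧ (∀ v, g.get v ≠ 0 → v < n) ∧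
      sv (List.range n) (fun _ => 1) (g.get · ≠ 0) =
        sv (List.range n) (fun _ => 1) (cl.get · ≠ 0) + nx.length ∧
      ∀ u, 2 ≤ cl.get u → ∀ p ∈ adj.get u,
        cap ≤ use.get p.1 ∨ g.get p.1 = 1 ∨ g.get p.1 = cl.get u := fun y g hy hg => by
    have o : ∀ v, cl.get v ≠ 0 → g.get v = cl.get v := fun v hv => by
      rw [hg, if_neg fun a => hv (z v a).1]
    refine ⟨o, fun v hv => ?_, ?_, fun u hu p hp => ?_⟩
    · rw [hg] at hv
      split_ifs at hv with a
      exacts [(z v a).2.2, h.lt v hv]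
    · rw [sv_add (T' := (cl.get · ≠ 0)) (T'' := (· ∈ nx.map Prod.fst)) (fun v _ => ?_)
        (fun v _ e a => e (z v a).1), sl]
      · simp
      · rw [hg]
        split_ifs with a
        · exact iff_of_true (by omega) (Or.inr a)
        · exact (or_iff_left a).symm
    · by_cases hu' : u ∈ fr.map Prod.fst
      · obtain ⟨r, hr, rfl⟩ := List.mem_map.1 hu'
        refine (a4 r hr p hp).imp id fun e => ?_
        rw [a2] at e
        rw [hg, (hf r hr).1]
        split_ifs at e ⊢ with a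
        · exact hy
        · by_cases e1 : cl.get p.1 = 1
          · exact Or.inl e1
          by_cases e2 : p.1 ∈ fr.map Prod.fst
          · obtain ⟨r', hr', e3⟩ := List.mem_map.1 e2
            exact Or.inr (e3 ▸ (hf r' hr').1)
          obtain ⟨w, hw⟩ := (hs _ _ hp).2
          have := h.nbr p.1 (by omega) e2 _ hw
          have := (h.mem _ hu).1
          have := (hf r hr).1
          simp only at *
          omega
      · rcases h.nbr u hu hu' p hp with e | e | e
        · exact Or.inl e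
        · exact Or.inr (Or.inl (by rw [o _ (by omega), e]))
        · exact Or.inr (Or.inr (by rw [o _ (by omega), e]))
  have le : ∀ T, sv (List.range n) wt.get T ≤ c.B := fun T =>
    ((sv_mono fun _ _ _ => trivial).trans hw).trans hB
  have lost := h.lost
  simp only [Tri_bind, Tri_sumP, Tri_ite, Tri_foldP, Tri_appendP, Tri_num, Tri_pure, ← sl]
  refine ⟨le _, fun acc => ?_, fun rej => ?_⟩
  · generalize e : List.foldl _ cl' nx = g
    have hg : ∀ v, g.get v = if v ∈ nx.map Prod.fst then s + 2 else cl.get v := fun v => by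
      rw [← e, foldl_set, a2]; split_ifs <;> rfl
    obtain ⟨o, g1, g2, g3⟩ := gen _ g (Or.inr rfl) hg
    have nz : ∀ v, cl.get v ≠ 0 → v ∉ nx.map Prod.fst := fun v hv a => hv (z v a).1
    have e1 : sv (List.range n) wt.get (2 ≤ g.get ·) = sv (List.range n) wt.get (2 ≤ cl.get ·) +
        sv (List.range n) wt.get (· ∈ nx.map Prod.fst) :=
      sv_add (fun v _ => by
        rw [hg]
        split_ifs with a
        · exact iff_of_true (by omega) (Or.inr a)
        · exact (or_iff_left a).symm) fun v _ e => nz v (by omega)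
    have e2 : sv (List.range n) wt.get (g.get · = 1) ≤ sv (List.range n) wt.get (cl.get · = 1) :=
      sv_mono fun v _ => by rw [hg]; split_ifs <;> omega
    have e3 := le (2 ≤ g.get ·)
    refine ⟨by omega, g, nx.length, o, g2, by omega, rfl, rfl, by simp only; omega,
      fun v => if v ∈ nx.map Prod.fst then k + 1 else dep v,
      ⟨⟨?_, fun r hr => ?_, ?_⟩, fun r hr => ?_, fun v hv => ?_, fun u hu hu' p hp => ?_, g1,
        by simp only; omega⟩, fun r hr => ?_⟩
    · rw [List.map_append]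
      refine List.nodup_append.2 ⟨a1, h.fo.nd, fun v hv v' hv' e => ?_⟩
      obtain ⟨r, hr, rfl⟩ := List.mem_map.1 hv'
      have := (h.edge r hr).2.1
      exact nz _ (by omega) (e ▸ hv)
    · refine (List.mem_append.1 hr).elim (fun hr e => ?_) (h.fo.ne r)
      have := (par r hr).1
      rw [e, (a3 r hr).1] at this
      omega
    · refine List.pairwise_append.2 ⟨List.pairwise_of_forall_mem_list fun r hr r' hr' e => ?_,
        h.fo.pw, fun r hr r' hr' e => ?_⟩
      · have := (par r' hr').1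
        rw [e, (a3 r hr).1] at this
        omega
      · obtain ⟨-, d1, d2, -⟩ := h.edge r' hr'
        rw [e, (a3 r hr).1] at d2
        omega
    · rcases List.mem_append.1 hr with hr | hr
      · have d1 := par r hr
        have d2 := List.mem_map_of_mem (f := Prod.fst) hr
        have d3 := nz r.2.1 (by omega)
        simp only [hg, if_pos d2, if_neg d3]
        exact ⟨(a3 r hr).2.2.2, by omega, d1.1, by omega⟩
      · obtain ⟨d1, d2, d3, d4⟩ := h.edge r hr
        simp only [hg, if_neg (nz r.1 (by omega)), if_neg (nz r.2.1 (by omega))]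
        exact ⟨d1, d2, d3, d4⟩
    · simp only [List.map_append, List.mem_append, not_or] at hv ⊢
      by_cases a : v ∈ nx.map Prod.fst
      · have d1 : g.get v = s + 2 := by rw [hg, if_pos a]
        have d2 := z v a
        rw [d1, if_pos a, Nat.add_sub_cancel, o s (by omega)]
        refine ⟨d2.2.1, hk, h0, iff_of_false (fun e => ?_) fun e => e.1 a⟩
        rw [← show s = v by omega] at d2
        omega
      · have d1 : g.get v = cl.get v := by rw [hg, if_neg a]
        rw [d1] at hv ⊢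
        obtain ⟨d2, d3, d4, d5⟩ := h.mem v hv
        rw [if_neg a, o _ (by omega), d5]
        exact ⟨d2, d3, d4, (and_iff_right a).symm⟩
    · have d1 : g.get u = cl.get u := by rw [hg, if_neg hu']
      simp only [d1] at hu ⊢
      exact g3 u hu p hp
    · have d2 := List.mem_map_of_mem (f := Prod.fst) hr
      simp only [hg, if_pos d2, and_self]
  · obtain ⟨o, g1, g2, g3⟩ := gen _ cl' (Or.inl rfl) a2
    have old : ∀ v, 2 ≤ cl'.get v → cl'.get v = cl.get v := fun v hv => by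
      rw [a2] at hv ⊢
      split_ifs at hv ⊢ <;> omega
    have e1 : sv (List.range n) wt.get (2 ≤ cl.get ·) ≤ sv (List.range n) wt.get (2 ≤ cl'.get ·) :=
      sv_mono fun v _ hv => by rw [o v (by omega)]; exact hv
    have e2 : sv (List.range n) wt.get (cl'.get · = 1) = sv (List.range n) wt.get (cl.get · = 1) +
        sv (List.range n) wt.get (· ∈ nx.map Prod.fst) :=
      sv_add (fun v _ => by
        rw [a2]
        split_ifs with a
        · exact iff_of_true rfl (Or.inr a)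
        · exact (or_iff_left a).symm) fun v _ e a => by have := (z v a).1; omega
    refine ⟨cl', nx.length, o, g2, by omega, rfl, h.fo, fun r hr => ?_, fun v hv => ?_,
      fun u hu _ p hp => ?_, g1, by simp only; omega⟩
    · obtain ⟨d1, d2, d3, d4⟩ := h.edge r hr
      simp only [o r.1 (by omega), o r.2.1 (by omega)]
      exact ⟨d1, d2, d3, d4⟩
    · simp only [old v hv] at hv ⊢
      obtain ⟨d2, d3, d4, d5⟩ := h.mem v hv
      rw [o _ (by omega)]
      exact ⟨d2, d3, d4, d5⟩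
    · simp only [old u hu] at hu ⊢
      exact g3 u hu p hp

theorem start_tri {b s : ℕ} {σ : LR} {dep : ℕ → ℕ}
    (hs : ∀ u, ∀ p ∈ adj.get u, p.1 < n ∧ ∃ w, (u, w) ∈ adj.get p.1)
    (hD : ∀ u, (adj.get u).length ≤ D)
    (hw : sv (List.range n) wt.get (fun _ => True) ≤ 2 ^ (b + 1)) (hB : 2 ^ (b + 1) ≤ c.B)
    (hn : s < n) (hn' : s + 2 ≤ c.B) (h1 : 1 ≤ wt.get s)
    (h : BI n (6 * (b + 1)) cap adj use wt σ.1.get σ.2 dep [] 0) :
    Tri c (start (2 ^ (b + 1) + 1) cap adj use wt σ s) fun τ t =>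
      (∃ dep', BI n (6 * (b + 1)) cap adj use wt τ.1.get τ.2 dep' [] 0) ∧
      (∀ v, σ.1.get v ≠ 0 → τ.1.get v ≠ 0) ∧ (cap ≤ use.get s ∨ τ.1.get s ≠ 0) ∧
      t + (D + 4) * sv (List.range n) (fun _ => 1) (σ.1.get · ≠ 0) ≤
        (D + 4) * sv (List.range n) (fun _ => 1) (τ.1.get · ≠ 0) + 6 * (b + 1) := by
  simp only [start, Tri_ite, Tri_bind, Tri_num, Tri_pure, zero_add]
  refine ⟨fun g => ⟨hn', Tri.loopM (fun τ t => ∃ dep k, BI n (6 * (b + 1)) cap adj use wt τ.1.get
    τ.2.1 dep (τ.2.2.1.map Prod.fst) τ.2.2.2 ∧ (∀ r ∈ τ.2.2.1, τ.1.get r.1 = s + 2 ∧ dep r.1 = k) ∧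
    τ.1.get s = s + 2 ∧ 9 ^ k ≤ 8 ^ k * τ.2.2.2 ∧ (∀ v, σ.1.get v ≠ 0 → τ.1.get v ≠ 0) ∧
    t + (D + 1) * τ.2.2.1.length + (D + 4) * sv (List.range n) (fun _ => 1) (σ.1.get · ≠ 0) ≤
      (D + 4) * sv (List.range n) (fun _ => 1) (τ.1.get · ≠ 0) + k)
    (fun τ => 2 ^ (b + 1) - τ.2.2.2) ?_ ?_ (by omega)⟩,
    fun g => ⟨⟨dep, h⟩, fun _ h => h, by omega, by omega⟩⟩
  · rintro τ t ⟨dep, k, a1, a2, a3, a4, a5, a6⟩
    have le : ∀ {g ord dep fr W}, BI n (6 * (b + 1)) cap adj use wt g ord dep fr W →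
        W ≤ 2 ^ (b + 1) := fun a => ((Nat.le_add_left _ _).trans a.lost).trans
      ((sv_mono fun _ _ _ => trivial).trans hw)
    have hk := few_layers a4 (le a1)
    refine (layer_tri hs hD hw hB a1 a2 a3 hk).mono ?_
    rintro (τ' | τ') t' ⟨g, m, d1, d2, d3, rfl, d4⟩
    · obtain ⟨rfl, d5, dep', d6, d7⟩ := d4
      have := le d6
      refine ⟨⟨dep', k + 1, d6, d7, by rw [d1 s (by omega), a3], ?_,
        fun v hv => by rw [d1 v (a5 v hv)]; exact a5 v hv, by rw [d2]; nlinarith⟩, by omega⟩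
      rw [pow_succ, pow_succ, mul_assoc]
      exact (Nat.mul_le_mul_right _ a4).trans
        (by rw [mul_assoc]; exact Nat.mul_le_mul_left _ (by omega))
    · exact ⟨⟨dep, d4⟩, fun v hv => by rw [d1 v (a5 v hv)]; exact a5 v hv,
        Or.inr (by rw [d1 s (by omega)]; omega), by rw [d2]; nlinarith⟩
  · have o : ∀ v, σ.1.get v ≠ 0 → (σ.1.set s (s + 2)).get v = σ.1.get v := fun v hv =>
      Arr.get_set_ne _ (fun e : v = s => hv (e ▸ g.1)) _
    have o' : ∀ v, v ≠ s → (σ.1.set s (s + 2)).get v = σ.1.get v := fun v hv =>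
      Arr.get_set_ne _ hv _
    have ne : ∀ v, 2 ≤ σ.1.get v → v ≠ s := fun v hv e => by rw [e] at hv; omega
    have ad : ∀ (f : ℕ → ℕ) (p : ℕ → Prop), p (s + 2) → ¬ p 0 →
        sv (List.range n) f (fun v => p ((σ.1.set s (s + 2)).get v)) =
          sv (List.range n) f (fun v => p (σ.1.get v)) + f s := fun f p h1 h2 => by
      rw [sv_add (T' := fun v => p (σ.1.get v)) (T'' := fun v => v = s ∧ True) (fun v _ => ?_)
        (fun v _ e a => h2 (by rwa [a.1, g.1] at e)), sv_single (List.mem_range.2 hn),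
        if_pos trivial]
      rw [Arr.get_set]
      split_ifs with a <;> simp [a, h1]
    have e1 := ad wt.get (2 ≤ ·) (by omega) (by omega)
    have e2 := ad (fun _ => 1) (· ≠ 0) (by omega) (by omega)
    have e3 : sv (List.range n) wt.get ((σ.1.set s (s + 2)).get · = 1) ≤
        sv (List.range n) wt.get (σ.1.get · = 1) :=
      sv_mono fun v _ => by rw [Arr.get_set]; split_ifs <;> omega
    have lost := h.lost
    refine ⟨Function.update dep s 0, 0, ⟨h.fo, fun r hr => ?_, fun v hv => ?_,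
      fun u hu hu' p hp => ?_, fun v hv => ?_, by simp only; omega⟩, by simp, by simp,
      by simpa using h1, fun v hv => by rw [o v hv]; exact hv, by
        simp only [e2, List.length_singleton]; nlinarith⟩
    · obtain ⟨d1, d2, d3, d4⟩ := h.edge r hr
      have d5 := ne _ d2
      have d6 := ne r.2.1 (by omega)
      simp only [o' _ d5, o' _ d6, Function.update_of_ne d5, Function.update_of_ne d6]
      exact ⟨d1, d2, d3, d4⟩
    · by_cases a : v = s
      · subst a
        simp only [Arr.get_set_self, Function.update_self, Nat.add_sub_cancel, true_iff, true_and]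
        refine ⟨g.2, by omega, fun e => ?_⟩
        obtain ⟨r, hr, e⟩ := List.mem_map.1 e
        exact ne _ (h.edge r hr).2.1 e
      · simp only [o' v a, Function.update_of_ne a] at hv ⊢
        obtain ⟨d2, d3, d4, d5⟩ := h.mem v hv
        rw [o _ (by omega)]
        exact ⟨d2, d3, d4, d5⟩
    · have a : u ≠ s := by simpa using hu'
      simp only [o' u a] at hu ⊢
      rcases h.nbr u hu (by simp) p hp with e | e | e
      · exact Or.inl e
      · exact Or.inr (Or.inl (by rw [o _ (by omega), e]))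
      · exact Or.inr (Or.inr (by rw [o _ (by omega), e]))
    · by_cases a : v = s
      · exact a ▸ hn
      · exact h.lt v (by rwa [← o' v a])

theorem sv_range (f : ℕ → ℕ) (T : ℕ → Prop) [DecidablePred T] :
    sv (List.range n) f T = ∑ v ∈ (Finset.range n).filter T, f v := by
  rw [sv, List.toFinset_range, Finset.sum_filter]
  exact Finset.sum_congr rfl fun v _ => by split_ifs <;> rfl

end Bl

open Bl in
theorem balls : BALLS := by
  refine ⟨ballsP, impl_ballsP, fun c b cap n D adj use wt st hs hD hst hw hn hB => ?_⟩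
  have hw' : sv (List.range n) wt.get (fun _ => True) = ∑ v ∈ Finset.range n, wt.get v := by
    simp [sv_range]
  have hp : 2 ^ (b + 5) = 16 * 2 ^ (b + 1) := by ring
  have hp' : 1 ≤ 2 ^ (b + 1) := Nat.one_le_two_pow
  refine (Tri.foldM (fun (pre : List ℕ) (σ : LR) t =>
    (∃ dep, BI n (6 * (b + 1)) cap adj use wt σ.1.get σ.2 dep [] 0) ∧
    (∀ s ∈ pre, cap ≤ use.get s ∨ σ.1.get s ≠ 0) ∧
    t ≤ (D + 4) * sv (List.range n) (fun _ => 1) (σ.1.get · ≠ 0) + (6 * b + 7) * pre.length)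
    ⟨⟨fun _ => 0, ⟨by simp, by simp, by simp⟩, by simp, by simp, by simp, by simp,
      by rw [sv_false (T := fun v => (Arr.const 0).get v = 1) (by simp)]; omega⟩, by simp,
      by simp⟩ ?_).mono ?_
  · rintro pre s rest σ t e ⟨⟨dep, a1⟩, a2, a3⟩
    obtain ⟨b1, b2⟩ := hst s (by rw [show st = _ from e]; simp)
    refine (start_tri hs hD (hw' ▸ hw) (by omega) b1 (by omega) b2 a1).mono ?_
    rintro τ t' ⟨d1, d2, d3, d4⟩
    refine ⟨d1, fun s' h => ?_, by
      rw [List.length_append, List.length_singleton, mul_add (6 * b + 7)]; omega⟩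
    rcases List.mem_append.1 h with h | h
    · exact (a2 s' h).imp id (d2 _)
    · exact List.mem_singleton.1 h ▸ d3
  · rintro σ t ⟨⟨dep, a⟩, a2, a3⟩
    have e : sv (List.range n) (fun _ => 1) (σ.1.get · ≠ 0) ≤ n :=
      (sv_mono (T' := fun _ => True) fun _ _ _ => trivial).trans (by simp [sv_range])
    refine ⟨⟨dep, a.fo, a.edge, fun v hv => ⟨a.lt v (by omega), a.mem v hv⟩,
      fun u hu => a.nbr u hu (by simp), ?_, fun s h => (a2 s h).imp id fun e => by omega⟩, ?_⟩
    · rw [← sv_range, ← hw']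
      exact ((Nat.le_add_right _ _).trans a.lost).trans (sv_mono fun _ _ _ => trivial)
    · have := Nat.mul_le_mul_left (D + 4) e
      nlinarith [Nat.zero_le (D * st.length), Nat.zero_le (b * n), Nat.zero_le (D * n),
        Nat.zero_le (b * st.length)]

end Vale.Agent.P305R
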