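import Vale.Agent.P305R.Defs

/-!
# The router: walks, counting and the greedy batch
-/

namespace Vale.Agent.P305R

open Vale.Agent.P305E

/-! ### Walks -/

/-- The reverse walk. -/
def rev (w : List St) : List St := (w.map fun s => (s.1, !s.2)).reverse

variable {E : ℕ → ℕ × ℕ}

theorem Walk.append {a b c : ℕ} : ∀ {w w' : List St} {a : ℕ}, Walk E a w b → Walk E b w' c →
    Walk E a (w ++ w') c
  | [], _, _, h, h' => by obtain rfl : _ = b := h; exact h'
  | _ :: _, _, _, h, h' => ⟨h.1, Walk.append (a := a) h.2 h'⟩

theorem Walk.rev {b : ℕ} : ∀ {w : List St} {a : ℕ}, Walk E a w b → Walk E b (rev w) a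
  | [], _, h => h.symm
  | s :: w, a, h => by
    have e : P305R.rev (s :: w) = P305R.rev w ++ [(s.1, !s.2)] := by simp [P305R.rev]
    rw [e]
    refine Walk.append (a := a) (Walk.rev h.2) ⟨?_, ?_⟩
    · cases hs : s.2 <;> simp [src, dst, hs]
    · have := h.1
      cases hs : s.2 <;> simp [src, dst, hs, Walk] at this ⊢ <;> exact this

@[simp] theorem length_rev (w : List St) : (rev w).length = w.length := by simp [rev]
@[simp] theorem occ_append (x : ℕ) (w w' : List St) : occ x (w ++ w') = occ x w + occ x w' := by
  simp [occ]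
@[simp] theorem occ_nil (x : ℕ) : occ x [] = 0 := rfl
@[simp] theorem occ_rev (x : ℕ) (w : List St) : occ x (rev w) = occ x w := by
  simp [occ, rev, List.map_reverse, Function.comp_def]
theorem occ_single (x : ℕ) (s : St) : occ x [s] = if s.1 = x then 1 else 0 := by
  simp [occ, List.count_singleton]

/-- All steps of a walk use edges of `S`. -/
def In (S : List ℕ) (w : List St) : Prop := ∀ s ∈ w, s.1 ∈ S

theorem In.append {S : List ℕ} {w w' : List St} (h : In S w) (h' : In S w') : In S (w ++ w') :=
  fun s hs => (List.mem_append.1 hs).elim (h s) (h' s)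
theorem In.rev {S : List ℕ} {w : List St} (h : In S w) : In S (rev w) := by
  intro s hs
  simp only [P305R.rev, List.mem_reverse, List.mem_map] at hs
  obtain ⟨s', h1, rfl⟩ := hs
  exact h s' h1
theorem In.mono {S S' : List ℕ} {w : List St} (h : In S w) (hS : ∀ x ∈ S, x ∈ S') : In S' w :=
  fun s hs => hS _ (h s hs)

/-- The program for the reverse walk. -/
def revW (w : List St) : M (List St) := mapP (fun s => (s.1, !s.2)) w >>= revP

@[simp] theorem Tri_revW {c : Cx} (w : List St) (Q : List St → ℕ → Prop) :
    Tri c (revW w) Q ↔ Q (rev w) (w.length + w.length) := by simp [revW, rev]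

@[fun_prop] theorem impl_revW {α : Type} [Rep α] {w : α → List St} (h : Pure w) :
    Impl fun a => revW (w a) := by
  unfold revW
  fun_prop

/-! ### Counting -/

theorem sum_countP {α κ : Type} [DecidableEq κ] (f : α → κ) (T : Finset κ) (l : List α) :
    ∑ k ∈ T, (l.countP fun x => f x = k) = l.countP fun x => f x ∈ T := by
  induction l with
  | nil => simp
  | cons x l ih =>
    simp only [List.countP_cons, Finset.sum_add_distrib, ih, decide_eq_true_eq]
    simp

theorem sum_count (T : Finset ℕ) (l : List ℕ) :
    ∑ k ∈ T, l.count k = l.countP fun x => x ∈ T := by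
  rw [← sum_countP (fun x => x) T l]
  refine Finset.sum_congr rfl fun k _ => ?_
  rw [List.count_eq_countP]
  rfl

theorem countP_or_le {α : Type} (p q : α → Prop) [DecidablePred p] [DecidablePred q]
    (l : List α) : (l.countP fun x => p x ∨ q x) ≤ (l.countP fun x => p x) + l.countP fun x => q x := by
  induction l with
  | nil => simp
  | cons x l ih =>
    simp only [List.countP_cons, decide_eq_true_eq]
    split_ifs <;> first | omega | tauto

theorem countP_mem_le {α κ : Type} [DecidableEq κ] (ka kb : α → κ) (T : Finset κ) (L : List α) :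
    (L.countP fun z => ka z ∈ T ∨ kb z ∈ T) ≤ ∑ k ∈ T, L.countP fun z => ka z = k ∨ kb z = k := by
  induction L with
  | nil => simp
  | cons z L ih =>
    simp only [List.countP_cons, Finset.sum_add_distrib, decide_eq_true_eq]
    refine add_le_add ih ?_
    split_ifs with g
    · rcases g with g | g
      · exact le_trans (by simp) (Finset.single_le_sum (fun _ _ => Nat.zero_le _) g)
      · exact le_trans (by simp) (Finset.single_le_sum (fun _ _ => Nat.zero_le _) g)
    · exact Nat.zero_le _

theorem sum_le_countP {α : Type} (f : α → ℕ) (p : α → Prop) [DecidablePred p] (c : ℕ) (l : List α)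
    (h : ∀ x ∈ l, f x ≤ if p x then c else 0) : (l.map f).sum ≤ c * l.countP fun x => p x := by
  induction l with
  | nil => simp
  | cons x l ih =>
    have := ih fun y hy => h y (by simp [hy])
    have := h x (by simp)
    simp only [List.map_cons, List.sum_cons, List.countP_cons, decide_eq_true_eq, mul_add]
    split_ifs at this ⊢ <;> omega

theorem Tri_map_det {α β : Type} {c : Cx} {f : α → M β} {g : α → β} {l : List α} {T : ℕ}
    (h : ∀ x ∈ l, Tri c (f x) fun y t => y = g x ∧ t ≤ T) :
    Tri c (mapM' f l) fun l' t => l' = l.map g ∧ t ≤ (T + 2) * l.length := by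
  have key : ∀ {l : List α} {l' : List β}, List.Forall₂ (fun x y => y = g x) l l' →
      l' = l.map g := fun h => by
    induction h with
    | nil => rfl
    | cons a _ ih => rw [a, ih, List.map_cons]
  refine (Tri.mapM' (P := fun x y => y = g x) (T := fun _ => T) h).mono fun l' t h => ⟨key h.1, ?_⟩
  · have := h.2
    simp only [List.map_const', List.sum_replicate, smul_eq_mul] at this
    nlinarith

theorem sum_weight {α : Type} {n : ℕ} (f : α → ℕ) (g : ℕ → ℕ) (l : List α)
    (h : ∀ x ∈ l, f x < n) :
    ∑ v ∈ Finset.range n, (l.map f).count v * g v = (l.map fun x => g (f x)).sum := by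
  induction l with
  | nil => simp
  | cons x l ih =>
    have hx := h x (by simp)
    simp only [List.map_cons, List.count_cons, add_mul, Finset.sum_add_distrib, List.sum_cons,
      ih fun y hy => h y (by simp [hy]), beq_iff_eq, ite_mul, one_mul, zero_mul]
    rw [Finset.sum_ite_eq, if_pos (Finset.mem_range.2 hx), add_comm]

/-- Adding the numbers of occurrences. -/
def cntP (a : Arr ℕ) (l : List ℕ) : M (Arr ℕ) :=
  foldM (fun a x => num (a.get x + 1) >>= fun y => pure (a.set x y)) a l

@[fun_prop] theorem impl_cntP {α : Type} [Rep α] {a : α → Arr ℕ} {l : α → List ℕ} (h : Pure a)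
    (h' : Pure l) : Impl fun x => cntP (a x) (l x) := by
  unfold cntP
  fun_prop

theorem cntP_tri {c : Cx} {a : Arr ℕ} {l : List ℕ} (h : ∀ x ∈ l, a.get x + l.count x ≤ c.B) :
    Tri c (cntP a l) fun a' t => (∀ x, a'.get x = a.get x + l.count x) ∧ t = l.length := by
  refine Tri.foldM (fun pre (a' : Arr ℕ) t => (∀ x, a'.get x = a.get x + pre.count x) ∧
    t = pre.length)
    (by simp) ?_
  rintro pre x rest a' _ e ⟨h1, rfl⟩
  have := h x (by simp [e])
  rw [e] at this
  simp only [List.count_append, List.count_cons_self] at this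
  simp only [Tri_bind, Tri_num, Tri_pure, h1]
  refine ⟨by omega, fun y => ?_, by simp⟩
  rw [Arr.get_set, h1, List.count_append, List.count_singleton]
  by_cases hy : y = x
  · simp [hy, add_assoc]
  · simp [hy, Ne.symm hy]

/-! ### The greedy batch -/

/-- One step of the greedy choice. -/
def pick {α : Type} (D : ℕ) (ok : α → Bool) (ka kb : α → ℕ) (s : Arr ℕ × List α × List α) (z : α) :
    Arr ℕ × List α × List α :=
  if ok z = true ∧ s.1.get (ka z) < D ∧ s.1.get (kb z) < D then
    ((s.1.set (ka z) (min D (s.1.get (ka z) + 1))).set (kb z) (min D (s.1.get (kb z) + 1)),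
      z :: s.2.1, s.2.2)
  else (s.1, s.2.1, z :: s.2.2)

theorem pick_inv {α : Type} (D : ℕ) (ok : α → Bool) (ka kb : α → ℕ) (l : List α) :
    let s := l.foldl (pick D ok ka kb) (Arr.const 0, [], [])
    (s.2.1 ++ s.2.2).Perm l ∧ (∀ z ∈ s.2.1, ok z = true) ∧
      (∀ k, s.1.get k = s.2.1.countP (fun z => ka z = k ∨ kb z = k) ∧ s.1.get k ≤ D) ∧
      ∀ z ∈ s.2.2, ok z = true → s.1.get (ka z) = D ∨ s.1.get (kb z) = D := by
  induction l using List.reverseRecOn with
  | nil => simp
  | append_singleton l z ih =>
    rw [List.foldl_append]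
    generalize l.foldl (pick D ok ka kb) (Arr.const 0, [], []) = s at ih
    obtain ⟨h1, h2, h3, h4⟩ := ih
    simp only [List.foldl_cons, List.foldl_nil, pick]
    split_ifs with h
    · have key : ∀ k, ((s.1.set (ka z) (min D (s.1.get (ka z) + 1))).set (kb z)
          (min D (s.1.get (kb z) + 1))).get k =
          s.1.get k + if ka z = k ∨ kb z = k then 1 else 0 := by
        intro k
        obtain ⟨-, a1, a2⟩ := h
        simp only [Arr.get_set]
        split_ifs <;> first | omega | (subst_vars; omega)
      refine ⟨?_, ?_, fun k => ?_, fun y hy hk => ?_⟩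
      · exact (List.Perm.cons z h1).trans (List.perm_append_singleton z l).symm
      · intro y hy
        rcases List.mem_cons.1 hy with rfl | hy
        exacts [h.1, h2 y hy]
      · simp only [key, List.countP_cons, decide_eq_true_eq, (h3 k).1, true_and]
        have := (h3 k).2
        have := (h3 k).1
        split_ifs with g
        · rcases g with rfl | rfl <;> omega
        · omega
      · simp only [key]
        have a1 := h4 y hy hk
        have a2 := h.2
        split_ifs with g1 g2 g2 <;> grind
    · refine ⟨?_, h2, h3, fun y hy hk => ?_⟩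
      · exact List.perm_middle.trans
          ((List.Perm.cons z h1).trans (List.perm_append_singleton z l).symm)
      · rcases List.mem_cons.1 hy with rfl | hy
        · have a1 := (h3 (ka y)).2
          have a2 := (h3 (kb y)).2
          have : ¬ (s.1.get (ka y) < D ∧ s.1.get (kb y) < D) := fun g => h ⟨hk, g⟩
          simp only
          omega
        · exact h4 y hy hk

/-- The greedy batch is large. -/
theorem pick_spec {α : Type} {D C : ℕ} (ok : α → Bool) (ka kb : α → ℕ) (l : List α)
    (hC : ∀ k, l.countP (fun z => ka z = k ∨ kb z = k) ≤ C) :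
    let s := l.foldl (pick D ok ka kb) (Arr.const 0, [], [])
    (s.2.1 ++ s.2.2).Perm l ∧ (∀ z ∈ s.2.1, ok z = true) ∧
      (∀ k, s.2.1.countP (fun z => ka z = k ∨ kb z = k) ≤ D) ∧
      D * l.countP ok ≤ (D + 2 * C) * s.2.1.length := by
  obtain ⟨h1, h2, h3, h4⟩ := pick_inv D ok ka kb l
  generalize l.foldl (pick D ok ka kb) (Arr.const 0, [], []) = s at h1 h2 h3 h4
  refine ⟨h1, h2, fun k => (h3 k).1 ▸ (h3 k).2, ?_⟩
  classical
  set T := ((l.map ka ++ l.map kb).toFinset).filter fun k => s.1.get k = D with hT
  have two : ∀ (L : List α) (k : ℕ), L.countP (fun z => ka z = k ∨ kb z = k) ≤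
      (L.countP fun z => ka z = k) + L.countP fun z => kb z = k := fun L k => countP_or_le _ _ L
  have a1 : D * T.card ≤ 2 * s.2.1.length := by
    calc D * T.card = ∑ k ∈ T, s.1.get k := by
          rw [Finset.sum_congr rfl fun k hk => (Finset.mem_filter.1 hk).2, Finset.sum_const,
            smul_eq_mul, mul_comm]
      _ ≤ ∑ k ∈ T, ((s.2.1.countP fun z => ka z = k) + s.2.1.countP fun z => kb z = k) :=
          Finset.sum_le_sum fun k _ => (h3 k).1 ▸ two _ k
      _ ≤ 2 * s.2.1.length := by
          rw [Finset.sum_add_distrib, sum_countP, sum_countP]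
          have := List.countP_le_length (p := fun x => decide (ka x ∈ T)) (l := s.2.1)
          have := List.countP_le_length (p := fun x => decide (kb x ∈ T)) (l := s.2.1)
          omega
  have a2 : s.2.2.countP ok ≤ T.card * C := by
    calc s.2.2.countP ok ≤ s.2.2.countP fun z => ka z ∈ T ∨ kb z ∈ T := by
          refine List.countP_mono_left fun z hz hk => ?_
          have hl : z ∈ l := h1.subset (List.mem_append_right _ hz)
          simp only [hT, Finset.mem_filter, List.mem_toFinset, List.mem_append, List.mem_map,
            decide_eq_true_eq]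
          exact (h4 z hz hk).imp (fun g => ⟨.inl ⟨z, hl, rfl⟩, g⟩) fun g => ⟨.inr ⟨z, hl, rfl⟩, g⟩
      _ ≤ l.countP fun z => ka z ∈ T ∨ kb z ∈ T := by
          rw [← h1.countP_eq, List.countP_append]; omega
      _ ≤ ∑ k ∈ T, C := (countP_mem_le ka kb T l).trans (Finset.sum_le_sum fun k _ => hC k)
      _ = T.card * C := by simp
  have a3 : l.countP ok ≤ s.2.1.length + s.2.2.countP ok := by
    rw [← h1.countP_eq, List.countP_append]
    have := List.countP_le_length (p := ok) (l := s.2.1)
    omega
  calc D * l.countP ok ≤ D * (s.2.1.length + T.card * C) := Nat.mul_le_mul_left _ (by omega)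
    _ = D * s.2.1.length + D * T.card * C := by ring
    _ ≤ D * s.2.1.length + 2 * s.2.1.length * C := by gcongr
    _ = (D + 2 * C) * s.2.1.length := by ring

end Vale.Agent.P305R
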