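import Vale.Agent.P305R.Defs

/-!
# Splitting vertices into copies of small degree
-/

namespace Vale.Agent.P305R

open Vale.Agent.P305E Finset

/-- The state: current copy, free places in it, number of copies. -/
abbrev SpS : Type := Arr ℕ × Arr ℕ × ℕ

/-- A copy for one more end at `x`. -/
def takeP (D : ℕ) (s : SpS) (x : ℕ) : M (ℕ × SpS) :=
  if s.2.1.get x = 0 then num (s.2.2 + 1) >>= fun n' =>
    pure (s.2.2, s.1.set x s.2.2, s.2.1.set x (D - 1), n')
  else pure (s.1.get x, s.1, s.2.1.set x (s.2.1.get x - 1), s.2.2)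

@[fun_prop] theorem impl_takeP : Impl fun p : ℕ × SpS × ℕ => takeP p.1 p.2.1 p.2.2 := by
  unfold takeP; fun_prop

/-- One edge. -/
def splitStep (D : ℕ) (s : SpS × List It) (z : It) : M (SpS × List It) :=
  takeP D s.1 z.2.1 >>= fun r => takeP D r.2 z.1 >>= fun r' =>
    pure (r'.2, (r'.1, r.1, z.2.2) :: s.2)

@[fun_prop] theorem impl_splitStep :
    Impl fun p : ℕ × (SpS × List It) × It => splitStep p.1 p.2.1 p.2.2 := by
  unfold splitStep; fun_prop

/-- The program. -/
def splitP (p : ℕ × List It) : M (List It) :=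
  revP p.2 >>= fun l => foldM (splitStep p.1) ((Arr.const 0, Arr.const 0, 0), []) l >>= fun r =>
    pure r.2

theorem impl_splitP : Impl splitP := by
  unfold splitP; fun_prop

/-- The invariant; `q` is the list of the copies that were handed out. -/
structure SpI (D : ℕ) (V : Finset ℕ) (q : List ℕ) (π : ℕ → ℕ) (s : SpS) : Prop where
  lt : ∀ i ∈ q, i < s.2.2
  cur : ∀ x, s.2.1.get x ≠ 0 → s.1.get x < s.2.2 ∧ π (s.1.get x) = x ∧
    q.count (s.1.get x) + s.2.1.get x ≤ D
  cnt : ∀ i, q.count i ≤ D
  sum : D * s.2.2 = q.length + ∑ x ∈ V, s.2.1.get x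
  le : s.2.2 ≤ q.length

theorem sum_set {V : Finset ℕ} {x : ℕ} (hx : x ∈ V) (a : Arr ℕ) (y : ℕ) :
    ∑ v ∈ V, (a.set x y).get v + a.get x = ∑ v ∈ V, a.get v + y := by
  rw [← Finset.add_sum_erase _ _ hx, ← Finset.add_sum_erase V a.get hx, Arr.get_set_self,
    Finset.sum_congr rfl fun v hv => Arr.get_set_ne a (Finset.ne_of_mem_erase hv) y]
  change y + (V.erase x).sum a.get + a.get x = a.get x + (V.erase x).sum a.get + y
  omega

theorem takeP_tri {c : Cx} {D : ℕ} {V : Finset ℕ} {q : List ℕ} {π : ℕ → ℕ} {s : SpS} {x : ℕ}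
    (hD : 1 ≤ D) (h : SpI D V q π s) (hx : x ∈ V) (hB : q.length + 1 ≤ c.B) :
    Tri c (takeP D s x) fun r t => t = 0 ∧ ∃ π', SpI D V (r.1 :: q) π' r.2 ∧
      (∀ i ∈ q, π' i = π i) ∧ π' r.1 = x := by
  obtain ⟨h1, h2, h3, h4, h5⟩ := h
  unfold takeP
  split_ifs with h0
  · simp only [Tri_bind, Tri_num, Tri_pure]
    have nq : q.count s.2.2 = 0 := List.count_eq_zero.2 fun hq => lt_irrefl _ (h1 _ hq)
    refine ⟨by omega, trivial, Function.update π s.2.2 x, ⟨?_, ?_, ?_, ?_, ?_⟩, ?_, by simp⟩
    · intro i hi
      rcases List.mem_cons.1 hi with rfl | hi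
      · simp
      · have := h1 i hi
        simp only
        omega
    · intro y hy
      by_cases e : y = x
      · subst e
        simp only [Arr.get_set_self, Function.update_self, List.count_cons_self, nq]
        exact ⟨by omega, trivial, by omega⟩
      · simp only [Arr.get_set_ne _ e] at hy ⊢
        obtain ⟨a1, a2, a3⟩ := h2 y hy
        rw [Function.update_of_ne (by omega), List.count_cons_of_ne (by omega)]
        exact ⟨by omega, a2, a3⟩
    · intro i
      by_cases e : s.2.2 = i
      · subst e
        simp only [List.count_cons_self, nq]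
        omega
      · simp only [List.count_cons_of_ne e]
        exact h3 i
    · have := sum_set hx s.2.1 (D - 1)
      simp only [List.length_cons, Nat.mul_add]
      omega
    · simp only [List.length_cons]
      omega
    · intro i hi
      exact Function.update_of_ne (h1 i hi).ne _ _
  · simp only [Tri_pure]
    obtain ⟨a1, a2, a3⟩ := h2 x h0
    refine ⟨trivial, π, ⟨?_, ?_, ?_, ?_, ?_⟩, fun _ _ => rfl, a2⟩
    · intro i hi
      rcases List.mem_cons.1 hi with rfl | hi
      · exact a1
      · exact h1 i hi
    · intro y hy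
      by_cases e : y = x
      · subst e
        simp only [Arr.get_set_self, List.count_cons_self]
        exact ⟨a1, a2, by omega⟩
      · simp only [Arr.get_set_ne _ e] at hy ⊢
        obtain ⟨b1, b2, b3⟩ := h2 y hy
        have : s.1.get x ≠ s.1.get y := fun e' => e (by rw [← b2, ← e', a2])
        rw [List.count_cons_of_ne this]
        exact ⟨b1, b2, b3⟩
    · intro i
      by_cases e : s.1.get x = i
      · subst e
        simp only [List.count_cons_self]
        omega
      · simp only [List.count_cons_of_ne e]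
        exact h3 i
    · have := sum_set hx s.2.1 (s.2.1.get x - 1)
      simp only [List.length_cons]
      omega
    · simp only [List.length_cons]
      omega

theorem ends_cons (z : It) (F : List It) : ends (z :: F) = z.1 :: z.2.1 :: ends F := rfl

theorem length_ends (F : List It) : (ends F).length = 2 * F.length := by
  induction F with
  | nil => rfl
  | cons z F ih => simp only [ends_cons, List.length_cons, ih]; omega

theorem mem_ends {z : It} {F : List It} (h : z ∈ F) : z.1 ∈ ends F ∧ z.2.1 ∈ ends F :=
  ⟨List.mem_flatMap.2 ⟨z, h, by simp⟩, List.mem_flatMap.2 ⟨z, h, by simp⟩⟩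

theorem split : SPLIT := by
  refine ⟨splitP, impl_splitP, fun c D F V hD hV hB => ?_⟩
  unfold splitP
  simp only [Tri_bind, Tri_revP, Tri_pure]
  refine (Tri.foldM (fun pre s t => t = pre.length ∧ s.2.length = pre.length ∧
    ∃ π, SpI D V (ends s.2) π s.1 ∧
      s.2.map (fun z => (π z.1, π z.2.1, z.2.2)) = pre.reverse) ?_ ?_).mono ?_
  · exact ⟨rfl, rfl, id, ⟨by simp [ends], by simp, by simp [ends], by simp [ends], by simp⟩, rfl⟩
  · rintro pre z rest s t e ⟨ht, hl, π, hI, hm⟩
    have hz : z ∈ F := List.mem_reverse.1 (by simp [e])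
    have hlen := congrArg List.length e
    simp only [List.length_reverse, List.length_append, List.length_cons] at hlen
    have hq := length_ends s.2
    unfold splitStep
    refine (takeP_tri hD hI (hV _ (mem_ends hz).2) (by omega)).bind ?_
    rintro r t1 ⟨rfl, π1, hI1, e1, e1'⟩
    refine (takeP_tri hD hI1 (hV _ (mem_ends hz).1) (by simp only [List.length_cons]; omega)).bind ?_
    rintro r' t2 ⟨rfl, π2, hI2, e2, e2'⟩
    simp only [Tri_pure]
    refine ⟨by simp [ht], by simp [hl], π2, hI2, ?_⟩
    simp only [List.map_cons, List.reverse_append, List.reverse_cons, List.reverse_nil,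
      List.nil_append, List.singleton_append, e2', e2 r.1 (by simp), e1', ← hm]
    congr 1
    refine List.map_congr_left fun y hy => ?_
    rw [e2 _ (List.mem_cons_of_mem _ (mem_ends hy).1), e2 _ (List.mem_cons_of_mem _ (mem_ends hy).2),
      e1 _ (mem_ends hy).1, e1 _ (mem_ends hy).2]
  · rintro s t ⟨ht, hl, π, hI, hm⟩
    have hq := length_ends s.2
    simp only [List.length_reverse, List.reverse_reverse] at ht hl hm
    refine ⟨π, s.1.2.2, hm.symm, hI.lt, hI.cnt, ?_, by have := hI.le; omega, by omega⟩
    have : ∑ x ∈ V, s.1.2.1.get x ≤ V.card * D := by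
      refine Finset.sum_le_card_nsmul _ _ _ fun x _ => ?_
      by_cases h0 : s.1.2.1.get x = 0
      · omega
      · have := (hI.cur x h0).2.2
        omega
    have := hI.sum
    rw [Nat.mul_comm D V.card]
    omega

end Vale.Agent.P305R
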