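import Vale.Agent.P305R.Prog
import Vale.Agent.P305R.Split

/-!
# The router: invariants, and facts about balls and pieces
-/

namespace Vale.Agent.P305R

open Vale.Agent.P305E

/-- The name of an edge. -/
def nm (z : It) : ℕ := z.2.2.1

/-- The walks of an edge lead from the original ends to the representatives. -/
structure ItOK (E : ℕ → ℕ × ℕ) (ρ : ℕ → ℕ) (S : List ℕ) (g : ℕ) (z : It) : Prop where
  w1 : Walk E (E z.2.2.1).1 z.2.2.2.1 (ρ z.1)
  w2 : Walk E (E z.2.2.1).2 z.2.2.2.2 (ρ z.2.1)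
  i1 : In S z.2.2.2.1
  i2 : In S z.2.2.2.2
  l1 : 2 * z.2.2.2.1.length + 1 ≤ g
  l2 : 2 * z.2.2.2.2.length + 1 ≤ g

/-- A finished route. -/
structure DnOK (E : ℕ → ℕ × ℕ) (S : List ℕ) (g : ℕ) (d : Dn) : Prop where
  w : Walk E (E d.1).1 d.2 (E d.1).2
  i : In S d.2
  l : d.2.length ≤ g

/-- Uses of an edge in the walks of a list of edges. -/
def oc (x : ℕ) (L : List It) : ℕ := (L.map fun z => occ x z.2.2.2.1 + occ x z.2.2.2.2).sum
/-- Uses of an edge in finished routes. -/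
def od (x : ℕ) (L : List Dn) : ℕ := (L.map fun d => occ x d.2).sum

/-- The fixed data of a level. -/
structure LD where
  E : ℕ → ℕ × ℕ
  b : ℕ
  D : ℕ
  β : ℕ
  n : ℕ
  g : ℕ
  Y : ℕ
  Mb : ℕ
  R0 : List It
  d0 : List Dn
  adj : Adj
  ρ : ℕ → ℕ
  blk : ℕ → ℕ
  S : List ℕ
  hs : ℕ → ℕ → ℕ

namespace LD
variable (L : LD)
/-- The radius. -/
def rad : ℕ := 6 * (L.b + 1)
/-- The cap for usage. -/
def cap : ℕ := L.D ^ 2 * L.rad
/-- The size of pieces. -/
def W : ℕ := L.D * L.β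
/-- The range of names of one round. -/
def K : ℕ := 2 ^ (L.b + 2)
/-- The new bound for lengths. -/
def g' : ℕ := L.g * (2 * L.rad + 1)
/-- The new blocks. -/
def blk' (v : ℕ) : ℕ := Nat.pair (v / L.K) (L.blk (v % L.K / 2))
/-- The numbers for the program. -/
def pm : Pm := (L.b, L.D, L.W, L.cap, L.K)

/-- The assumptions. -/
structure OK (B : ℕ) : Prop where
  a1 : ∀ u, ∀ p ∈ L.adj.get u, p.1 < L.n ∧ ∃ w, (u, w) ∈ L.adj.get p.1
  a2 : ∀ u, (L.adj.get u).length ≤ L.D
  a3 : ∀ u, ∀ p ∈ L.adj.get u, Walk L.E (L.ρ p.1) p.2 (L.ρ u) ∧ In L.S p.2 ∧ p.2.length ≤ L.g ∧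
    L.blk p.1 = L.blk u ∧ ∀ x, occ x p.2 ≤ L.hs x p.1
  good : ∀ χ : ℕ → ℕ, (∀ v, χ v < L.n + 2) →
    (∀ u, 2 ≤ χ u → ∀ p ∈ L.adj.get u, 2 ≤ χ p.1 → χ p.1 = χ u) → L.R0.countP (Cross χ ·) ≤ L.Y
  it : ∀ z ∈ L.R0, z.1 < L.n ∧ z.2.1 < L.n ∧ 2 * z.2.2.1 + 1 ≤ B ∧ L.blk z.1 = L.blk z.2.1 ∧
    ItOK L.E L.ρ L.S L.g z
  nd : (L.R0.map nm).Nodup
  deg : ∀ x, (ends L.R0).count x ≤ L.D
  blkc : ∀ x, (L.R0.countP fun z => L.blk z.1 = x) ≤ L.Mb
  dn : ∀ d ∈ L.d0, DnOK L.E L.S L.g' d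
  hD : 1 ≤ L.D
  hβ : 2 ≤ L.β
  hg : 1 ≤ L.g
  hn : L.n ≤ 2 ^ (L.b + 1)
  hm : L.R0.length ≤ 2 ^ L.b
  b1 : 2 ^ (L.b + 5) ≤ B
  b2 : 2 * L.W ≤ B
  b3 : L.cap + 2 * L.D ≤ B

/-- The invariant of the rounds. -/
structure RI (r : ℕ) (s : RS) : Prop where
  sub : ∃ T, (s.1 ++ T).Perm L.R0
  ids : (s.1.map nm ++ s.2.2.1.map nm ++ s.2.2.2.map Prod.fst).Perm
    (L.R0.map nm ++ L.d0.map Prod.fst)
  use : ∀ v, s.2.1.get v ≤ L.cap + 2 * L.D
  tot : ∑ v ∈ Finset.range L.n, s.2.1.get v + 2 * L.rad * s.1.length ≤ 2 * L.rad * L.R0.length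
  occ : ∀ x, oc x s.1 + oc x s.2.2.1 + od x s.2.2.2 ≤
    oc x L.R0 + od x L.d0 + ∑ v ∈ Finset.range L.n, s.2.1.get v * L.hs x v
  nxt : ∃ ρ', ∀ z ∈ s.2.2.1, ItOK L.E ρ' L.S L.g' z ∧ z.1 < r * L.K ∧ z.2.1 < r * L.K ∧
    L.blk' z.1 = L.blk' z.2.1
  blk : ∀ y, L.β * (s.2.2.1.countP fun z => L.blk' z.1 = y) ≤ 2 * L.Mb
  vs : ∃ V : Finset ℕ, (∀ x ∈ ends s.2.2.1, x ∈ V) ∧
    L.D * V.card + 40 * s.1.length ≤ 40 * L.R0.length
  dn : ∀ d ∈ s.2.2.2, DnOK L.E L.S L.g' d
  size : L.D * s.1.length ≤ 4 * (L.D * L.Y + 2 * L.R0.length) ∨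
    (s.1.length : ℝ) ≤ L.R0.length * (1 - 1 / (10 * L.β)) ^ r

end LD

theorem ix_inj {P Q : ℕ × Bool} (h : ix P = ix Q) : P = Q := by
  obtain ⟨x, a⟩ := P
  obtain ⟨y, b⟩ := Q
  cases a <;> cases b <;> simp [ix] at h ⊢ <;> omega

theorem ix_div (P : ℕ × Bool) : ix P / 2 = P.1 := by
  unfold ix
  split_ifs <;> omega

theorem pw_cons (r : Rc) (l : List Rc) : pw (r :: l) = pw l ++ r.2.2 := by simp [pw]

theorem of_ends {F : List It} {x : ℕ} : x ∈ ends F ↔ ∃ z ∈ F, x = z.1 ∨ x = z.2.1 := by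
  simp [ends]

theorem ends_append (F F' : List It) : ends (F ++ F') = ends F ++ ends F' := by simp [ends]

theorem ends_perm {F F' : List It} (h : F.Perm F') : (ends F).Perm (ends F') :=
  h.flatMap_right _

theorem count_ends_le {R T F : List It} (h : (R ++ T).Perm F) (x : ℕ) :
    (ends R).count x ≤ (ends F).count x := by
  rw [← (ends_perm h).count_eq, ends_append, List.count_append]
  omega

theorem toks_cons (z : It) (F : List It) :
    toks (z :: F) = (2 * z.2.2.1, z.1) :: (2 * z.2.2.1 + 1, z.2.1) :: toks F := by simp [toks]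

theorem toks_snd (R : List It) : (toks R).map (fun q => q.2) = ends R := by
  induction R with
  | nil => rfl
  | cons z R ih => simp only [toks_cons, ends_cons, List.map_cons, ih]

theorem length_toks (R : List It) : (toks R).length = 2 * R.length := by
  rw [← length_ends, ← toks_snd, List.length_map]

theorem mem_toks {R : List It} {z : It} (h : z ∈ R) :
    (2 * z.2.2.1, z.1) ∈ toks R ∧ (2 * z.2.2.1 + 1, z.2.1) ∈ toks R :=
  ⟨List.mem_flatMap.2 ⟨z, h, by simp⟩, List.mem_flatMap.2 ⟨z, h, by simp⟩⟩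

theorem toks_nodup {R : List It} (h : (R.map nm).Nodup) : ((toks R).map Prod.fst).Nodup := by
  induction R with
  | nil => simp [toks]
  | cons z R ih =>
    rw [List.map_cons, List.nodup_cons] at h
    have key : ∀ t ∈ (toks R).map Prod.fst, t / 2 ≠ z.2.2.1 := by
      intro t ht e
      simp only [toks, List.mem_map, List.mem_flatMap, List.mem_cons, List.not_mem_nil,
        or_false] at ht
      obtain ⟨q, ⟨y, hy, rfl | rfl⟩, rfl⟩ := ht <;>
        exact h.1 (List.mem_map.2 ⟨y, hy, by simp only [nm] at e ⊢; omega⟩)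
    simp only [toks_cons, List.map_cons, List.nodup_cons, List.mem_cons, not_or]
    exact ⟨⟨by omega, fun g => key _ g (by omega)⟩, fun g => key _ g (by omega), ih h.2⟩

theorem countP_toks (p : ℕ × ℕ → Prop) [DecidablePred p] (R : List It) :
    ((toks R).countP fun q => p q) = (R.countP fun z => p (2 * z.2.2.1, z.1)) +
      R.countP fun z => p (2 * z.2.2.1 + 1, z.2.1) := by
  induction R with
  | nil => rfl
  | cons z R ih =>
    simp only [toks_cons, List.countP_cons, ih]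
    omega

theorem oc_perm {x : ℕ} {F F' : List It} (h : F.Perm F') : oc x F = oc x F' :=
  (h.map _).sum_eq
theorem oc_append (x : ℕ) (F F' : List It) : oc x (F ++ F') = oc x F + oc x F' := by simp [oc]
theorem od_append (x : ℕ) (F F' : List Dn) : od x (F ++ F') = od x F + od x F' := by simp [od]

section facts
variable {L : LD} {B : ℕ} {use wt cl dep : ℕ → ℕ} {st : List ℕ} {ord : List Rc}

theorem up_facts (h : L.OK B) (hb : Balls L.n L.rad L.cap L.adj.get use wt st cl ord dep)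
    {x y : ℕ} {l : List Rc} (hu : Up ord x l y) :
    Walk L.E (L.ρ x) (pw l) (L.ρ y) ∧ In L.S (pw l) ∧ (pw l).length ≤ l.length * L.g ∧
      L.blk x = L.blk y ∧ cl x = cl y ∧ l.length + dep y = dep x ∧
      (∀ r ∈ l, r ∈ ord ∧ dep y < dep r.1) ∧ (l.map fun r => r.1).Nodup ∧
      ∀ s, occ s (pw l) ≤ (l.map fun r => L.hs s r.1).sum := by
  induction hu with
  | nil => simp [pw, Walk, In]
  | @cons l r _ hr ih =>
    obtain ⟨i1, i2, i3, i4, i5, i6, i7, i8, i9⟩ := ih
    obtain ⟨e1, e2, e3, e4⟩ := hb.edge r hr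
    obtain ⟨a1, a2, a3, a4, a5⟩ := h.a3 _ _ e1
    rw [pw_cons]
    refine ⟨Walk.append (a := 0) i1 a1, i2.append a2, ?_, i4.trans a4, i5.trans e3.symm, ?_, ?_, ?_,
      fun s => ?_⟩
    · simp only [List.length_append, List.length_cons] at a3 ⊢
      nlinarith
    · simp only [List.length_cons]
      omega
    · intro r' hr'
      rcases List.mem_cons.1 hr' with rfl | hr'
      · exact ⟨hr, by omega⟩
      · exact ⟨(i7 r' hr').1, by have := (i7 r' hr').2; omega⟩
    · rw [List.map_cons, List.nodup_cons]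
      refine ⟨fun g => ?_, i8⟩
      obtain ⟨r', hr', e⟩ := List.mem_map.1 g
      have := (i7 r' hr').2
      rw [e] at this
      omega
    · have := i9 s
      have := a5 s
      simp only [occ_append, List.map_cons, List.sum_cons] at *
      omega

variable {tok : List (ℕ × ℕ)} {loc : ℕ → ℕ × Bool} {up : ℕ → List Rc} {rt : ℕ × Bool → ℕ}

theorem loc_facts (h : L.OK B) (hb : Balls L.n L.rad L.cap L.adj.get use wt st cl ord dep)
    (hp : Pieces L.W tok ord loc up rt) {q : ℕ × ℕ} (hq : q ∈ tok) :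
    L.blk (loc q.1).1 = L.blk q.2 ∧ cl (loc q.1).1 = cl q.2 ∧
      (2 ≤ cl q.2 → (loc q.1).1 < L.n ∧ (up q.1).length ≤ L.rad ∧
        ((loc q.1).2 = false → loc q.1 = (cl q.2 - 2, false))) := by
  obtain ⟨-, -, -, i4, i5, i6, -⟩ := up_facts h hb (hp.path q hq)
  have key : L.blk (loc q.1).1 = L.blk q.2 ∧ cl (loc q.1).1 = cl q.2 := by
    cases g : (loc q.1).2
    · rw [i4, i5, (hp.opn q hq g).1]
      exact ⟨rfl, rfl⟩
    · obtain ⟨⟨r, hr, e1, e2⟩, -⟩ := hp.cls q hq g
      obtain ⟨a1, -, a3, -⟩ := hb.edge r hr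
      rw [i4, i5, ← e1, ← e2]
      exact ⟨(h.a3 _ _ a1).2.2.2.1, a3.symm⟩
  refine ⟨key.1, key.2, fun g => ?_⟩
  have m := hb.mem _ (key.2 ▸ g)
  refine ⟨m.1, by have := (hb.mem _ g).2.2.1; omega, fun g' => ?_⟩
  have := m.2.2.2.2.2 (hp.opn q hq g').2
  rw [key.2] at this
  exact Prod.ext (by simp only; omega) g'

/-- The closed pieces with names in `X`. -/
def big (tok : List (ℕ × ℕ)) (loc : ℕ → ℕ × Bool) (X : ℕ → Prop) [DecidablePred X] :
    Finset (ℕ × Bool) := ((tok.map fun q => loc q.1).toFinset).filter fun P => P.2 = true ∧ X P.1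

theorem big_card {W : ℕ} (hp : Pieces W tok ord loc up rt) (X : ℕ → Prop) [DecidablePred X]
    (hX : ∀ q ∈ tok, X (loc q.1).1 → X q.2) :
    W * (big tok loc X).card ≤ tok.countP fun q => X q.2 := by
  calc W * (big tok loc X).card = ∑ _P ∈ big tok loc X, W := by simp [mul_comm]
    _ ≤ ∑ P ∈ big tok loc X, tok.countP fun q => loc q.1 = P := by
        refine Finset.sum_le_sum fun P hP => ?_
        simp only [big, Finset.mem_filter, List.mem_toFinset, List.mem_map] at hP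
        obtain ⟨⟨q, hq, rfl⟩, g, -⟩ := hP
        exact (hp.cls q hq g).2
    _ ≤ _ := by
        rw [sum_countP (fun q : ℕ × ℕ => loc q.1)]
        refine List.countP_mono_left fun q hq g => ?_
        simp only [big, Finset.mem_filter, decide_eq_true_eq] at g ⊢
        exact hX q hq g.2.2

/-- If few edges are inside balls, few edges are left. -/
theorem stop_size (h : L.OK B) {R T : List It} (hR : (R ++ T).Perm L.R0) {cl : Arr ℕ}
    (hb : Balls L.n L.rad L.cap L.adj.get use (fun x => (ends R).count x) (ends R) cl.get ord dep)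
    (hu : ∑ v ∈ Finset.range L.n, use v ≤ 2 * L.rad * L.R0.length)
    (hs : 2 * (R.filter (intra cl)).length < R.length) :
    L.D * R.length ≤ 4 * (L.D * L.Y + 2 * L.R0.length) := by
  have hn : ∀ x ∈ ends R, x < L.n := by
    intro x hx
    obtain ⟨z, hz, e⟩ := of_ends.1 hx
    have := h.it z (hR.subset (List.mem_append_left _ hz))
    omega
  have a1 : ∀ F : List It, (∀ x ∈ ends F, L.cap ≤ use x ∨ 1 ≤ cl.get x) →
      F.length ≤ (F.filter (intra cl)).length + F.countP (Cross cl.get ·) +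
        (ends F).countP (fun x => cl.get x = 1) + (ends F).countP fun x => L.cap ≤ use x := by
    intro F hF
    induction F with
    | nil => simp
    | cons z F ih =>
      rw [ends_cons] at hF ⊢
      have := ih fun x hx => hF x (by simp [hx])
      have := hF z.1 (by simp)
      have := hF z.2.1 (by simp)
      have c1 : intra cl z = true ↔ 2 ≤ cl.get z.1 ∧ cl.get z.1 = cl.get z.2.1 := by simp [intra]
      have c2 : Cross cl.get z ↔ 2 ≤ cl.get z.1 ∧ 2 ≤ cl.get z.2.1 ∧ cl.get z.1 ≠ cl.get z.2.1 :=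
        Iff.rfl
      simp only [← List.countP_eq_length_filter, List.countP_cons, decide_eq_true_eq,
        List.length_cons, c1, c2] at *
      split_ifs <;> omega
  have a2 : R.countP (Cross cl.get ·) ≤ L.Y := by
    refine le_trans ?_ (h.good cl.get (fun v => ?_) fun u hu p hp hv => ?_)
    · rw [← hR.countP_eq, List.countP_append]
      omega
    · by_cases g : 2 ≤ cl.get v
      · have := (hb.mem _ ((hb.mem v g).2.2.2.1 ▸ g)).1
        omega
      · omega
    · have := hb.nbr u hu p hp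
      have := (hb.mem _ hv).2.1
      omega
  have cnt : ∀ (p : ℕ → Prop) [DecidablePred p], (ends R).countP (fun x => p x) =
      ∑ v ∈ (Finset.range L.n).filter p, (ends R).count v := by
    intro p _
    rw [sum_count]
    exact List.countP_congr fun x hx => by simp [hn x hx]
  have a3 : 8 * (ends R).countP (fun x => cl.get x = 1) ≤ 2 * R.length := by
    have := hb.lost
    rw [← cnt, sum_count] at this
    exact this.trans (List.countP_le_length.trans (length_ends R).le)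
  set Z := (Finset.range L.n).filter fun x => L.cap ≤ use x with hZ
  have a4 : (ends R).countP (fun x => L.cap ≤ use x) ≤ Z.card * L.D := by
    rw [cnt]
    exact Finset.sum_le_card_nsmul _ _ _ fun x _ => (count_ends_le hR x).trans (h.deg x)
  have a5 : Z.card * L.cap ≤ 2 * L.rad * L.R0.length :=
    le_trans (Finset.card_nsmul_le_sum _ _ _ fun x hx => (Finset.mem_filter.1 hx).2)
      ((Finset.sum_le_sum_of_subset (Finset.filter_subset _ _)).trans hu)
  have a6 : L.D * (Z.card * L.D) ≤ 2 * L.R0.length := by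
    refine Nat.le_of_mul_le_mul_left ?_ (show 0 < L.rad by unfold LD.rad; omega)
    unfold LD.cap at a5
    nlinarith
  have a7 := a1 R hb.seen
  have a8 : R.length ≤ 4 * L.Y + 4 * (Z.card * L.D) := by omega
  have := Nat.mul_le_mul_left L.D a8
  nlinarith

end facts

end Vale.Agent.P305R
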