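import Vale.Agent.P305R.Inv

/-!
# The router: specifications of the rounds and of one level
-/

namespace Vale.Agent.P305R

open Vale.Agent.P305E Vale.Agent.P305C

/-- All rounds of a level; input `(T, numbers, adj, R0, d0)`. -/
def ROUNDS : Prop := ∃ f : ℕ × Pm × Adj × List It × List Dn → M RS, Impl f ∧
  ∀ (c : Cx) (L : LD) (T : ℕ), L.OK c.B → T = 10 * L.β * (L.b + 1) → T * L.K ≤ c.B →
    Tri c (f (T, L.pm, L.adj, L.R0, L.d0)) fun s t => L.RI T s ∧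
      L.D * s.1.length ≤ 4 * (L.D * L.Y + 2 * L.R0.length) ∧
      t ≤ 300 * T * (L.W + L.g') * (L.n + L.R0.length + 1)

/-- The state of the levels: current edges, skeleton, finished edges. -/
abbrev LvS : Type := List It × List ℕ × List Dn

/-- The invariant of the levels. -/
structure LI (E : ℕ → ℕ × ℕ) (b j h : ℕ) (I0 : List ℕ) (N m i : ℕ) (s : LvS) : Prop where
  ids : (s.1.map nm ++ s.2.1 ++ s.2.2.map Prod.fst).Perm I0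
  it : ∃ ρ, ∀ z ∈ s.1, ItOK E ρ s.2.1 ((12 * b + 13) ^ i) z
  dn : ∀ d ∈ s.2.2, DnOK E s.2.1 ((12 * b + 13) ^ i) d
  occ : ∀ x, oc x s.1 + od x s.2.2 + 1 ≤ (16 ^ j * (12 * b + 17)) ^ i
  blk : ∃ blk : ℕ → ℕ, (∀ z ∈ s.1, blk z.1 = blk z.2.1) ∧
    ∀ x, 2 ^ (h * i) * (s.1.countP fun z => blk z.1 = x) ≤ 2 ^ b
  vs : ∃ V : Finset ℕ, (∀ x ∈ ends s.1, x ∈ V) ∧ 4 ^ j * V.card ≤ 4 ^ j * N + 40 * m
  size : 2 ^ j * s.2.1.length ≤ 200 * i * (b + 2) * (m + 4 ^ j * (N + 1))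

/-- One level; input `((b, j, h), s)`. -/
def LEVEL : Prop := ∃ f : (ℕ × ℕ × ℕ) × LvS → M LvS, Impl f ∧
  ∀ (B d b j h : ℕ) (E : ℕ → ℕ × ℕ) (I0 : List ℕ) (N m i : ℕ) (s : LvS), I0.Nodup →
    I0.length ≤ m → m ≤ 2 ^ b → (∀ e ∈ I0, 2 * e + 1 ≤ B) → d ≤ b → j ≤ b → h ≤ b →
    2 ^ (10 * (b + 1)) ≤ B → LI E b j h I0 N m i s →
    Vt d B (f ((b, j, h), s)) fun s' t => LI E b j h I0 N m (i + 1) s' ∧
      t ≤ 4 ^ (j + h + 9) * (b + 1) ^ 2 * (12 * b + 13) ^ (i + 1) * (m + 1)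

end Vale.Agent.P305R
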