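import Vale.Agent.P305R.Lev

/-!
# The router: one level from the rounds
-/

namespace Vale.Agent.P305R

open Vale.Agent.P305E Vale.Agent.P305C

/-- The walk between the representatives of the ends. -/
def xw (z : It) : List St := rev z.2.2.2.1 ++ (z.2.2.1, true) :: z.2.2.2.2
/-- The two arcs of an edge. -/
def arc (z : It) : List Rc := [(z.1, z.2.1, rev (xw z)), (z.2.1, z.1, xw z)]
/-- The program for the arcs. -/
def arcP (z : It) : M (List Rc) :=
  revW z.2.2.2.1 >>= fun x => appendP x ((z.2.2.1, true) :: z.2.2.2.2) >>= fun X =>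
  revW X >>= fun Y => pure [(z.1, z.2.1, Y), (z.2.1, z.1, X)]
/-- A new entry of the adjacency lists. -/
def ins (a : Adj) (r : Rc) : Adj := a.set r.1 (r.2 :: a.get r.1)

/-- One level. -/
def lvP (sp : ℕ × List It → M (List It)) (sm : ℕ × List It → M (List It × List It))
    (rd : ℕ × Pm × Adj × List It × List Dn → M RS) (p : (ℕ × ℕ × ℕ) × LvS) : M LvS :=
  pow2 p.1.2.1 >>= fun J => pow2 p.1.2.2 >>= fun H => pow2 p.1.1 >>= fun P =>
  num (J * J) >>= fun D => num (10 * (H * 2) * (p.1.1 + 1)) >>= fun T =>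
  num (D * (H * 2)) >>= fun W => num (D * D * (6 * (p.1.1 + 1))) >>= fun cap =>
  num (P * 4) >>= fun K => sp (D, p.2.1) >>= fun F => sm (p.1.2.1, F) >>= fun r =>
  mapM' arcP r.1 >>= fun x => flattenP x >>= fun l => foldP ins (Arr.const []) l >>= fun adj =>
  rd (T, (p.1.1, D, W, cap, K), adj, r.2, p.2.2.2) >>= fun s =>
  mapP nm r.1 >>= fun n1 => appendP n1 p.2.2.1 >>= fun S1 =>
  mapP nm s.1 >>= fun n2 => appendP n2 S1 >>= fun S2 => pure (s.2.2.1, S2, s.2.2.2)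

theorem impl_lvP {sp : ℕ × List It → M (List It)} {sm : ℕ × List It → M (List It × List It)}
    {rd : ℕ × Pm × Adj × List It × List Dn → M RS} (h1 : Impl sp) (h2 : Impl sm) (h3 : Impl rd) :
    Impl (lvP sp sm rd) := by
  unfold lvP arcP ins nm
  fun_prop

theorem ins_spec : ∀ (l : List Rc) (a : Adj) (u : ℕ),
    (∀ p, p ∈ (l.foldl ins a).get u ↔ (u, p) ∈ l ∨ p ∈ a.get u) ∧
      ((l.foldl ins a).get u).length = (l.map Prod.fst).count u + (a.get u).length
  | [], _, _ => by simp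
  | r :: l, a, u => by
    obtain ⟨h1, h2⟩ := ins_spec l (ins a r) u
    obtain ⟨v, q⟩ := r
    simp only [List.foldl_cons, h1, h2]
    simp only [ins, Arr.get_set, List.map_cons, List.count_cons, beq_iff_eq, List.mem_cons,
      Prod.mk.injEq]
    by_cases g : u = v
    · subst g
      simp only [if_true, List.mem_cons, List.length_cons, true_and]
      exact ⟨fun p => by tauto, by omega⟩
    · simp [g, Ne.symm g]

theorem arcs_fst (L : List It) : (L.flatMap arc).map Prod.fst = ends L := by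
  induction L with
  | nil => rfl
  | cons z L ih => simp [arc, ends_cons, ← ih]

theorem arcs_occ (x : ℕ) (L : List It) : ((L.flatMap arc).map fun r => occ x r.2.2).sum =
    2 * (oc x L + (L.map nm).count x) := by
  induction L with
  | nil => rfl
  | cons z L ih =>
    have e : occ x (xw z) = occ x z.2.2.2.1 + occ x z.2.2.2.2 + if nm z = x then 1 else 0 := by
      rw [xw, ← List.singleton_append, occ_append, occ_append, occ_rev, occ_single, add_assoc,
        add_comm (ite _ _ _)]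
      rfl
    simp only [List.flatMap_cons, List.map_append, List.sum_append, ih, arc, List.map_cons,
      List.map_nil, List.sum_cons, List.sum_nil, occ_rev, e, oc, List.count_cons, beq_iff_eq]
    omega

theorem xw_ok {E : ℕ → ℕ × ℕ} {ρ : ℕ → ℕ} {S : List ℕ} {g : ℕ} {z : It} (h : ItOK E ρ S g z)
    (hz : nm z ∈ S) : Walk E (ρ z.1) (xw z) (ρ z.2.1) ∧ In S (xw z) ∧ (xw z).length ≤ g := by
  refine ⟨Walk.append (a := 0) h.w1.rev ⟨rfl, h.w2⟩, h.i1.rev.append fun s hs => ?_, ?_⟩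
  · rcases List.mem_cons.1 hs with rfl | hs
    exacts [hz, h.i2 s hs]
  · have := h.l1
    have := h.l2
    simp only [xw, List.length_append, length_rev, List.length_cons]
    omega

theorem ItOK.mono {E : ℕ → ℕ × ℕ} {ρ : ℕ → ℕ} {S S' : List ℕ} {g : ℕ} {z : It}
    (h : ItOK E ρ S g z) (hS : ∀ x ∈ S, x ∈ S') : ItOK E ρ S' g z :=
  ⟨h.w1, h.w2, h.i1.mono hS, h.i2.mono hS, h.l1, h.l2⟩

/-- The data of a level. -/
def mkL (E : ℕ → ℕ × ℕ) (b j h i n : ℕ) (Bs R0 : List It) (S : List ℕ) (d0 : List Dn)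
    (ρ blk : ℕ → ℕ) : LD where
  E := E
  b := b
  D := 2 ^ j * 2 ^ j
  β := 2 ^ h * 2
  n := n
  g := (12 * b + 13) ^ i
  Y := 2 ^ j * ((b + 2) * n + b + 2)
  Mb := 2 ^ b / 2 ^ (h * i)
  R0 := R0
  d0 := d0
  adj := (Bs.flatMap arc).foldl ins (Arr.const [])
  ρ := ρ
  blk := blk
  S := Bs.map nm ++ S
  hs x v := ((Bs.flatMap arc).map fun r => if r.2.1 = v then occ x r.2.2 else 0).sum

/-- Renaming of the ends. -/
def ren (π : ℕ → ℕ) (z : It) : It := (π z.1, π z.2.1, z.2.2)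

section math
variable {E : ℕ → ℕ × ℕ} {B b j h i n N m : ℕ} {I0 S : List ℕ} {F Bs R0 : List It} {d0 : List Dn}
  {π ρ blk : ℕ → ℕ}

theorem g'_eq : (mkL E b j h i n Bs R0 S d0 ρ blk).g' = (12 * b + 13) ^ (i + 1) := by
  simp only [LD.g', LD.rad, mkL]
  ring

theorem nums (hj : j ≤ b) (hh : h ≤ b) (hB : 2 ^ (10 * (b + 1)) ≤ B) :
    32 * 2 ^ b ≤ B ∧ 2 * (2 ^ j * 2 ^ j * (2 ^ h * 2)) ≤ B ∧
      2 ^ j * 2 ^ j * (2 ^ j * 2 ^ j) * (6 * (b + 1)) + 2 * (2 ^ j * 2 ^ j) ≤ B ∧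
      10 * (2 ^ h * 2) * (b + 1) * (2 ^ b * 4) ≤ B := by
  have a1 : 2 ^ j ≤ 2 ^ b := Nat.pow_le_pow_right (by omega) hj
  have a2 : 2 ^ h ≤ 2 ^ b := Nat.pow_le_pow_right (by omega) hh
  have a3 : b + 1 ≤ 2 ^ b := Nat.lt_two_pow_self
  have a4 : 1024 * (2 ^ b) ^ 5 ≤ B := by
    refine le_trans ?_ hB
    rw [← pow_mul, show 1024 = 2 ^ 10 by norm_num, ← pow_add]
    exact Nat.pow_le_pow_right (by omega) (by omega)
  generalize 2 ^ b = P at *
  generalize 2 ^ j = J at *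
  generalize 2 ^ h = H at *
  have p : ∀ k, k ≤ 5 → P ^ k ≤ P ^ 5 := fun k hk => Nat.pow_le_pow_right (by omega) hk
  have p1 : P ≤ P ^ 5 := by simpa using p 1 (by omega)
  have p2 := p 2 (by omega)
  have p3 := p 3 (by omega)
  have c1 : J * J ≤ P ^ 2 := by rw [sq]; gcongr
  have c2 : J * J * H ≤ P ^ 3 := by rw [pow_succ]; gcongr
  have c3 : J * J * (J * J) * (b + 1) ≤ P ^ 5 := by
    rw [show P ^ 5 = P ^ 2 * P ^ 2 * P by ring]; gcongr
  have c4 : H * (b + 1) * P ≤ P ^ 3 := by rw [pow_succ, sq]; gcongr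
  refine ⟨by omega, ?_, ?_, ?_⟩ <;> nlinarith

theorem ok_of (hs : LI E b j h I0 N m i (F.map (ren π), S, d0)) (hn : I0.Nodup)
    (hm : I0.length ≤ 2 ^ b) (he : ∀ e ∈ I0, 2 * e + 1 ≤ B) (hj : j ≤ b) (hh : h ≤ b)
    (hB : 2 ^ (10 * (b + 1)) ≤ B) (hp : (Bs ++ R0).Perm F) (h1 : ∀ x ∈ ends F, x < n)
    (h2 : ∀ x, (ends F).count x ≤ 2 ^ j * 2 ^ j) (h3 : n ≤ 2 * F.length)
    (h4 : Good n (2 ^ j * ((b + 2) * n + b + 2)) F Bs) :
    ∃ ρ blk, (mkL E b j h i n Bs R0 S d0 ρ blk).OK B ∧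
      ∀ z ∈ Bs, z.2.2.2.1.length ≤ (12 * b + 13) ^ i ∧ (xw z).length ≤ (12 * b + 13) ^ i := by
  obtain ⟨ρ, hρ⟩ := hs.it
  obtain ⟨blk, k1, k2⟩ := hs.blk
  obtain ⟨b1, b2, b3, -⟩ := nums hj hh hB
  have hp' := List.perm_append_comm.trans hp
  have ids : (F.map nm ++ S ++ d0.map Prod.fst).Perm I0 := by
    have := hs.ids
    simp only [List.map_map] at this
    exact this
  have len := ids.length_eq
  have len' := hp.length_eq
  simp only [List.length_append, List.length_map] at len len'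
  have it : ∀ z ∈ F, ItOK E (ρ ∘ π) (Bs.map nm ++ S) ((12 * b + 13) ^ i) z ∧
      blk (π z.1) = blk (π z.2.1) := fun z hz => by
    have a := (hρ _ (List.mem_map_of_mem hz)).mono fun x hx => List.mem_append_right (Bs.map nm) hx
    exact ⟨⟨a.w1, a.w2, a.i1, a.i2, a.l1, a.l2⟩, k1 _ (List.mem_map_of_mem hz)⟩
  have sub : ∀ z ∈ Bs, z ∈ F := fun z hz => hp.subset (List.mem_append_left _ hz)
  have xo := fun z hz => xw_ok (it z (sub z hz)).1
    (List.mem_append_left _ (List.mem_map_of_mem (f := nm) hz))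
  have mem : ∀ u p, p ∈ ((Bs.flatMap arc).foldl ins (Arr.const [])).get u ↔
      (u, p) ∈ Bs.flatMap arc := fun u p => by simp [(ins_spec _ _ u).1]
  have mem' : ∀ {r : Rc}, r ∈ Bs.flatMap arc ↔
      ∃ z ∈ Bs, r = (z.1, z.2.1, rev (xw z)) ∨ r = (z.2.1, z.1, xw z) := by simp [arc]
  refine ⟨ρ ∘ π, blk ∘ π, ⟨fun u p hu => ?_, fun u => ?_, fun u p hu => ?_, fun χ c1 c2 => ?_,
    fun z hz => ?_, ?_, fun x => (count_ends_le hp' x).trans (h2 x), fun x => ?_, fun d hd => ?_,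
    Nat.succ_le_of_lt (by simp only [mkL]; positivity), ?_, Nat.one_le_pow _ _ (by omega), ?_, ?_,
    ?_, b2, ?_⟩, fun z hz => ⟨by have := (it z (sub z hz)).1.l1; omega, (xo z hz).2.2⟩⟩
  · simp only [mkL, mem] at hu ⊢
    obtain ⟨z, hz, e | e⟩ := mem'.1 hu <;> obtain ⟨rfl, rfl⟩ := Prod.mk.inj e
    · exact ⟨h1 _ (mem_ends (sub z hz)).2, _, mem'.2 ⟨z, hz, .inr rfl⟩⟩
    · exact ⟨h1 _ (mem_ends (sub z hz)).1, _, mem'.2 ⟨z, hz, .inl rfl⟩⟩
  · simp only [mkL, (ins_spec _ _ u).2, arcs_fst]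
    exact (count_ends_le hp u).trans (h2 u)
  · simp only [mkL, mem] at hu ⊢
    have key : ∀ x, occ x p.2 ≤
        ((Bs.flatMap arc).map fun r => if r.2.1 = p.1 then occ x r.2.2 else 0).sum := fun x =>
      List.single_le_sum (fun _ _ => Nat.zero_le _) _ (List.mem_map.2 ⟨_, hu, if_pos rfl⟩)
    obtain ⟨z, hz, e | e⟩ := mem'.1 hu <;> obtain ⟨rfl, rfl⟩ := Prod.mk.inj e
    · exact ⟨(xo z hz).1.rev, (xo z hz).2.1.rev, (length_rev _).le.trans (xo z hz).2.2,
        (it z (sub z hz)).2.symm, key⟩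
    · exact ⟨(xo z hz).1, (xo z hz).2.1, (xo z hz).2.2, (it z (sub z hz)).2, key⟩
  · refine le_trans ?_ (h4 χ c1 fun z hz g => ?_)
    · rw [← hp.countP_eq, List.countP_append]
      exact Nat.le_add_left _ _
    · exact g.2.2 (c2 _ g.1 _ ((mem _ _).2 (mem'.2 ⟨z, hz, .inl rfl⟩)) g.2.1).symm
  · have hF := hp.subset (List.mem_append_right _ hz)
    exact ⟨h1 _ (mem_ends hF).1, h1 _ (mem_ends hF).2, he _ (ids.subset (List.mem_append_left _
      (List.mem_append_left _ (List.mem_map_of_mem (f := nm) hF)))), (it z hF).2, (it z hF).1⟩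
  · have := (ids.nodup_iff.2 hn).of_append_left.of_append_left
    rw [← (hp.map nm).nodup_iff, List.map_append] at this
    exact this.of_append_right
  · refine (Nat.le_div_iff_mul_le (by positivity)).2 (le_trans ?_ (k2 x))
    rw [mul_comm, List.countP_map, ← hp.countP_eq, List.countP_append]
    exact Nat.mul_le_mul_left _ (Nat.le_add_left _ _)
  · have a := hs.dn d hd
    refine ⟨a.w, a.i.mono fun x hx => List.mem_append_right _ hx, a.l.trans ?_⟩
    rw [g'_eq]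
    exact Nat.pow_le_pow_right (by omega) (by omega)
  · have : 1 ≤ 2 ^ h := Nat.one_le_two_pow
    simp only [mkL]
    omega
  · simp only [mkL, pow_succ]
    omega
  · simp only [mkL]
    omega
  · simp only [mkL, pow_add]
    omega
  · simp only [LD.cap, LD.rad, mkL, sq]
    exact b3

theorem li_of (hs : LI E b j h I0 N m i (F.map (ren π), S, d0)) (hn : I0.Nodup)
    (hm : I0.length ≤ m) (hp : (Bs ++ R0).Perm F)
    (h2 : 2 ^ j * 2 ^ j * n ≤ 4 ^ j * N + 42 * m)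
    (h3 : 2 ^ j * Bs.length ≤ 2 * F.length + 2 ^ j * (b + 2)) {T : ℕ} {s : RS}
    (hr : (mkL E b j h i n Bs R0 S d0 ρ blk).RI T s)
    (h4 : 2 ^ j * 2 ^ j * s.1.length ≤
      4 * (2 ^ j * 2 ^ j * (2 ^ j * ((b + 2) * n + b + 2)) + 2 * R0.length)) :
    LI E b j h I0 N m (i + 1) (s.2.2.1, s.1.map nm ++ (Bs.map nm ++ S), s.2.2.2) := by
  have ids : (F.map nm ++ S ++ d0.map Prod.fst).Perm I0 := by
    have := hs.ids
    simp only [List.map_map] at this
    exact this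
  have len := ids.length_eq
  have len' := hp.length_eq
  simp only [List.length_append, List.length_map] at len len'
  have e4 : 4 ^ j = 2 ^ j * 2 ^ j := mul_pow 2 2 j
  have p1 : 1 ≤ 2 ^ j := Nat.one_le_two_pow
  refine ⟨?_, ?_, fun d hd => ?_, fun x => ?_, ?_, ?_, ?_⟩
  · refine List.Perm.trans ?_ ids
    have a1 := hr.ids
    have a2 := hp.map nm
    rw [List.perm_iff_count] at a1 a2 ⊢
    intro x
    have := a1 x
    have := a2 x
    simp only [mkL, List.count_append, List.map_append] at *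
    omega
  · obtain ⟨ρ', a⟩ := hr.nxt
    exact ⟨ρ', fun z hz => g'_eq ▸ (a z hz).1.mono fun x hx => List.mem_append_right _ hx⟩
  · have a := hr.dn d hd
    exact ⟨a.w, a.i.mono fun x hx => List.mem_append_right _ hx, g'_eq ▸ a.l⟩
  · have a1 := hr.occ x
    have a2 := hs.occ x
    have a3 : oc x (F.map (ren π)) = oc x Bs + oc x R0 := by
      rw [← oc_append, oc_perm hp, oc, List.map_map]
      rfl
    have a4 : (Bs.map nm).count x ≤ 1 := by
      have := (ids.nodup_iff.2 hn).of_append_left.of_append_left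
      rw [← (hp.map nm).nodup_iff, List.map_append] at this
      exact List.nodup_iff_count_le_one.1 this.of_append_left x
    have a5 : ∀ l : List Rc, ∑ v ∈ Finset.range n,
        (l.map fun r => if r.2.1 = v then occ x r.2.2 else 0).sum ≤
        (l.map fun r => occ x r.2.2).sum := fun l => by
      induction l with
      | nil => simp
      | cons r l ih =>
        simp only [List.map_cons, List.sum_cons, Finset.sum_add_distrib, Finset.sum_ite_eq]
        split_ifs <;> omega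
    have a6 := (Finset.sum_le_sum fun v (_ : v ∈ Finset.range n) => Nat.mul_le_mul_right
      ((mkL E b j h i n Bs R0 S d0 ρ blk).hs x v) (hr.use v)).trans
      ((Finset.mul_sum _ _ _).ge.trans (Nat.mul_le_mul_left _ ((a5 _).trans
        (arcs_occ x Bs).le)))
    have a7 : 2 * ((2 ^ j * 2 ^ j) ^ 2 * (6 * (b + 1)) + 2 * (2 ^ j * 2 ^ j)) + 1 ≤
        16 ^ j * (12 * b + 17) := by
      rw [show 16 ^ j = (2 ^ j * 2 ^ j) ^ 2 by rw [← e4, sq]; exact mul_pow 4 4 j]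
      have : 1 ≤ 2 ^ j * 2 ^ j := Nat.mul_pos p1 p1
      generalize 2 ^ j * 2 ^ j = D at *
      nlinarith
    simp only [mkL, LD.cap, LD.rad] at a1 a2 a6 ⊢
    rw [pow_succ]
    refine le_trans ?_ (Nat.mul_le_mul a2 a7)
    rw [a3]
    generalize (2 ^ j * 2 ^ j) ^ 2 * (6 * (b + 1)) + 2 * (2 ^ j * 2 ^ j) = U at *
    have := Nat.mul_le_mul_left U a4
    nlinarith [Nat.zero_le (U * oc x R0), Nat.zero_le (U * od x d0)]
  · obtain ⟨ρ', a⟩ := hr.nxt
    refine ⟨_, fun z hz => (a z hz).2.2.2, fun x => ?_⟩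
    have a1 := hr.blk x
    have a2 := Nat.mul_div_le (2 ^ b) (2 ^ (h * i))
    rw [mul_add, mul_one, pow_add, mul_assoc]
    refine le_trans (Nat.mul_le_mul_left _ ?_) a2
    change 2 ^ h * 2 * _ ≤ 2 * (2 ^ b / 2 ^ (h * i)) at a1
    nlinarith
  · obtain ⟨V, a1, a2⟩ := hr.vs
    refine ⟨V, a1, ?_⟩
    simp only [mkL, ← e4] at a2
    omega
  · have a1 := hs.size
    have a2 : 2 ^ j * s.1.length ≤ 4 * (b + 2) * (4 ^ j * (N + 1) + 42 * m) + 8 * m := by
      refine Nat.le_of_mul_le_mul_left ?_ p1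
      have := Nat.mul_le_mul_left (2 ^ j * (b + 2)) h2
      have : R0.length ≤ 2 ^ j * m := le_trans (by omega) (Nat.le_mul_of_pos_left m p1)
      rw [e4] at *
      nlinarith
    have a3 : 2 ^ j * (b + 2) ≤ (b + 2) * (4 ^ j * (N + 1)) := by
      rw [mul_comm, e4, mul_assoc]
      exact Nat.mul_le_mul_left _ (Nat.le_mul_of_pos_right _ (by positivity))
    simp only [List.length_append, List.length_map, mul_add (2 ^ j)] at a1 h3 a3 ⊢
    generalize 4 ^ j * (N + 1) = X at *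
    have : F.length ≤ m := by omega
    nlinarith [Nat.zero_le (b * m), Nat.zero_le (b * X)]

theorem time {t1 t2 t3 t4 f r q : ℕ} (hj : j ≤ b) (hf : f ≤ m) (hn : n ≤ 2 * f) (hr : r + q = f)
    (h1 : t1 ≤ 10 * (f + 1)) (h2 : t2 ≤ 10 * (j + 1) * (f + 1))
    (h3 : t3 ≤ (5 * (12 * b + 13) ^ i + 2) * q)
    (h4 : t4 ≤ 300 * (10 * (2 ^ h * 2) * (b + 1)) *
      (2 ^ j * 2 ^ j * (2 ^ h * 2) + (12 * b + 13) ^ (i + 1)) * (n + r + 1)) :
    t1 + t2 + t3 + t4 + 9 * f ≤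
      4 ^ (j + h + 9) * (b + 1) ^ 2 * (12 * b + 13) ^ (i + 1) * (m + 1) := by
  have g1 : 1 ≤ (12 * b + 13) ^ i := Nat.one_le_pow _ _ (by omega)
  have g2 : (12 * b + 13) ^ i ≤ (12 * b + 13) ^ (i + 1) := Nat.pow_le_pow_right (by omega) (by omega)
  have p1 : 1 ≤ 2 ^ j * 2 ^ j := Nat.succ_le_of_lt (by positivity)
  have p2 : 1 ≤ 2 ^ h := Nat.one_le_two_pow
  rw [pow_add, pow_add, show (4 : ℕ) = 2 * 2 from rfl, mul_pow, mul_pow 2 2 h]
  generalize (12 * b + 13) ^ (i + 1) = G at *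
  generalize (12 * b + 13) ^ i = g at *
  generalize 2 ^ j * 2 ^ j = D at *
  generalize 2 ^ h = H at *
  have c0 : 1 ≤ D * H := Nat.mul_pos p1 p2
  have c1 : D * (H * 2) + G ≤ 3 * (D * H * G) := by nlinarith
  have c2 : t4 ≤ 300 * (10 * (H * 2) * (b + 1)) * (3 * (D * H * G)) * (3 * (m + 1)) :=
    h4.trans (by gcongr; omega)
  have c3 : t3 ≤ 7 * G * (m + 1) := h3.trans (by gcongr <;> omega)
  have c4 : t2 ≤ 10 * (b + 1) * (m + 1) := h2.trans (by gcongr)
  have c5 : 1 ≤ D * (H * H) := Nat.mul_pos p1 (Nat.mul_pos p2 p2)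
  set Z := D * (H * H) * (b + 1) * G * (m + 1) with hZ
  have d1 : (b + 1) * (m + 1) ≤ Z := by
    rw [hZ, show (b + 1) * (m + 1) = 1 * (b + 1) * 1 * (m + 1) by ring]
    gcongr
    omega
  have d2 : G * (m + 1) ≤ Z := by
    rw [hZ, show G * (m + 1) = 1 * 1 * G * (m + 1) by ring]
    gcongr
    omega
  have d3 : m + 1 ≤ Z := le_trans (Nat.le_mul_of_pos_left _ (by omega)) d1
  calc _ ≤ (2 * 2) ^ 9 * 1 * Z := by nlinarith
    _ ≤ (2 * 2) ^ 9 * (b + 1) * Z := by gcongr; omega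
    _ = _ := by rw [hZ]; ring

end math

/-- **One level from the rounds.** -/
theorem level : ROUNDS → LEVEL := by
  rintro ⟨rd, i3, hr⟩
  obtain ⟨sp, i1, hp⟩ := split
  obtain ⟨sm, i2, hq⟩ := sample
  refine ⟨lvP sp sm rd, impl_lvP i1 i2 i3, ?_⟩
  rintro B d b j h E I0 N m i ⟨cur, S, d0⟩ hn hl hm he hd hj hh hB hs
  obtain ⟨b1, b2, b3, b4⟩ := nums hj hh hB
  have a1 : 2 ^ j ≤ 2 ^ b := Nat.pow_le_pow_right (by omega) hj
  have a2 : 2 ^ h ≤ 2 ^ b := Nat.pow_le_pow_right (by omega) hh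
  have a3 : 1 ≤ 2 ^ b := Nat.one_le_two_pow
  have len := hs.ids.length_eq
  simp only [List.length_append, List.length_map] at len
  obtain ⟨V, v1, v2⟩ := hs.vs
  unfold lvP
  dsimp only
  refine Vt.need (by omega) (Vt.need (by omega) (Vt.need (by omega) ?_))
  refine Vt.num_bind (by omega) (Vt.num_bind (le_trans (Nat.le_mul_of_pos_right _ (by omega)) b4)
    (Vt.num_bind (by omega) (Vt.num_bind (by omega) (Vt.num_bind (by omega) ?_))))
  refine Vt.tbind (hp ⟨B, true⟩ _ cur V (Nat.succ_le_of_lt (by positivity)) v1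
    (by simp only; omega)) ?_
  rintro F t1 ⟨π, n, rfl, s1, s2, s3, s4, s5⟩
  simp only [List.length_map] at len s3 s4 s5
  refine (hq B d b j n F s1 (by rw [pow_succ]; omega) (by omega) hd (by omega)).bind ?_
  rintro ⟨Bs, R0⟩ t2 ⟨q1, q2, q3, q4⟩
  dsimp only at q1 q2 q3 ⊢
  obtain ⟨ρ, blk, ok, hx⟩ := ok_of hs hn (by omega) he hj hh hB q1 s1 s2 s4 q3
  refine Vt.of_tri (cn := true) ((Tri_map_det (g := arc) (T := 5 * (12 * b + 13) ^ i)
    fun z hz => ?_).bind ?_)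
  · have := hx z hz
    simp only [arcP, Tri_bind, Tri_revW, Tri_appendP, Tri_pure, length_rev]
    exact ⟨rfl, by unfold xw at this; omega⟩
  rintro _ t3 ⟨rfl, h3⟩
  rw [Tri_bind, Tri_flattenP, Tri_bind, Tri_foldP, ← List.flatMap_def]
  have e : (mkL E b j h i n Bs R0 S d0 ρ blk).pm = (b, 2 ^ j * 2 ^ j, 2 ^ j * 2 ^ j * (2 ^ h * 2),
      2 ^ j * 2 ^ j * (2 ^ j * 2 ^ j) * (6 * (b + 1)), 2 ^ b * (2 * 2)) := by
    simp only [LD.pm, LD.W, LD.cap, LD.K, LD.rad, mkL, sq, pow_add]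
  have k := hr ⟨B, true⟩ _ _ ok rfl (by rw [LD.K, pow_add]; exact b4)
  rw [e, g'_eq] at k
  refine k.bind ?_
  rintro s t4 ⟨r1, r2, r3⟩
  simp only [Tri_bind, Tri_mapP, Tri_appendP, Tri_pure, List.length_map]
  have l1 := q1.length_eq
  have l2 : (Bs.flatMap arc).length = 2 * Bs.length := by
    rw [← length_ends, ← arcs_fst, List.length_map]
  obtain ⟨T, r4⟩ := r1.sub
  have l3 : s.1.length + T.length = R0.length := by simpa [mkL] using r4.length_eq
  rw [List.length_append] at l1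
  refine ⟨li_of hs hn hl q1 ?_ q2 r1 r2, le_trans ?_
    (time (f := F.length) (r := R0.length) hj (by omega) s4 (by omega) s5 q4 h3 r3)⟩
  · rw [show 4 ^ j = 2 ^ j * 2 ^ j from mul_pow 2 2 j] at v2 ⊢
    omega
  · omega

end Vale.Agent.P305R
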