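import Vale.Agent.P305R.Lev

/-!
# The router: from one level to all levels
-/

namespace Vale.Agent.P305R

open Vale.Agent.P305E Vale.Agent.P305C

/-- The edge is not a loop. -/
def nl (z : Ed) : Bool := decide (z.2.1 ≠ z.2.2)
/-- The edge with two empty walks. -/
def it0 (z : Ed) : It := (z.2.1, z.2.2, z.1, [], [])

/-- The table of the routes. -/
def tbl (S : List ℕ) (D : List Dn) : Arr (List St) :=
  S.foldl (fun a x => a.set x [(x, true)]) (D.foldl (fun a d => a.set d.1 d.2) (Arr.const []))

/-- The router. -/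
def mainP (lv : (ℕ × ℕ × ℕ) × LvS → M LvS) (p : (ℕ × ℕ × ℕ × ℕ) × List Ed) :
    M (List ℕ × Arr (List St)) :=
  filterP nl p.2 >>= fun F => mapP it0 F >>= fun c =>
  iterM (fun s _ => lv ((p.1.1, p.1.2.1, p.1.2.2.1), s)) (c, [], []) p.1.2.2.2 >>= fun s =>
  foldP (fun (a : Arr (List St)) (d : Dn) => a.set d.1 d.2) (Arr.const []) s.2.2 >>= fun a =>
  foldP (fun (a : Arr (List St)) x => a.set x [(x, true)]) a s.2.1 >>= fun a' => pure (s.2.1, a')

theorem impl_mainP {lv : (ℕ × ℕ × ℕ) × LvS → M LvS} (h : Impl lv) : Impl (mainP lv) := by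
  unfold mainP nl it0
  fun_prop

theorem fold_out {α β : Type} (k : α → ℕ) (v : α → β) {x : ℕ} : ∀ (l : List α) (a : Arr β),
    x ∉ l.map k → (l.foldl (fun a d => a.set (k d) (v d)) a).get x = a.get x
  | [], _, _ => rfl
  | d :: l, a, h => by
    rw [List.map_cons, List.mem_cons, not_or] at h
    rw [List.foldl_cons, fold_out k v l _ h.2, Arr.get_set_ne _ h.1]

theorem fold_in {α β : Type} (k : α → ℕ) (v : α → β) {y : α} : ∀ (l : List α) (a : Arr β),
    (l.map k).Nodup → y ∈ l → (l.foldl (fun a d => a.set (k d) (v d)) a).get (k y) = v y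
  | d :: l, a, h, hy => by
    rw [List.map_cons, List.nodup_cons] at h
    rw [List.foldl_cons]
    rcases List.mem_cons.1 hy with rfl | hy
    · rw [fold_out k v l _ h.1, Arr.get_set_self]
    · exact fold_in k v l _ h.2 hy

section tbl
variable {S : List ℕ} {D : List Dn}

theorem tbl_S (h : (S ++ D.map Prod.fst).Nodup) {x : ℕ} (hx : x ∈ S) :
    (tbl S D).get x = [(x, true)] :=
  fold_in id (fun x => [(x, true)]) S _ (by simpa using h.of_append_left) hx

theorem tbl_D (h : (S ++ D.map Prod.fst).Nodup) {d : Dn} (hd : d ∈ D) :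
    (tbl S D).get d.1 = d.2 := by
  have a : d.1 ∉ S.map id := fun g =>
    List.disjoint_of_nodup_append h (by simpa using g) (List.mem_map_of_mem hd)
  exact (fold_out id (fun x => [(x, true)]) S _ a).trans
    (fold_in Prod.fst Prod.snd D _ h.of_append_right hd)

theorem tbl_out {x : ℕ} (hx : x ∉ S ++ D.map Prod.fst) : (tbl S D).get x = [] := by
  rw [List.mem_append, not_or] at hx
  exact (fold_out id (fun x => [(x, true)]) S _ (by simpa using hx.1)).trans
    (fold_out Prod.fst Prod.snd D _ hx.2)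

end tbl

theorem sum_filter_eq {α : Type} (p : α → Bool) (g : α → ℕ) : ∀ l : List α,
    (∀ z ∈ l, p z = false → g z = 0) → (l.map g).sum = ((l.filter p).map g).sum
  | [], _ => rfl
  | z :: l, h => by
    have ih := sum_filter_eq p g l fun y hy => h y (List.mem_cons_of_mem _ hy)
    cases e : p z
    · simp [e, ih, h z (List.mem_cons_self ..) e]
    · simp [e, ih]

theorem sum_occ_single (x : ℕ) : ∀ S : List ℕ,
    (S.map fun s => occ x [(s, true)]).sum = S.count x
  | [] => rfl
  | s :: S => by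
    rw [List.map_cons, List.sum_cons, sum_occ_single x S, occ_single, List.count_cons]
    simp only [beq_iff_eq]
    omega

section fin
variable {E : ℕ → ℕ × ℕ} {F : List Ed} {b j h N dep : ℕ}

theorem li_zero {V : Finset ℕ} (hF : ∀ z ∈ F, E z.1 = z.2 ∧ z.2.1 ∈ V ∧ z.2.2 ∈ V)
    (hm : F.length ≤ 2 ^ b) : LI E b j h ((F.filter nl).map Prod.fst) V.card F.length 0
      ((F.filter nl).map it0, [], []) := by
  refine ⟨by simp [nm, it0, Function.comp_def], ⟨id, fun z hz => ?_⟩, by simp, fun x => ?_,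
    ⟨fun _ => 0, fun _ _ => rfl, fun x => ?_⟩, ⟨V, fun x hx => ?_, by omega⟩, by simp⟩
  · obtain ⟨y, hy, rfl⟩ := List.mem_map.1 hz
    have := (hF y (List.mem_filter.1 hy).1).1
    refine ⟨?_, ?_, ?_, ?_, ?_, ?_⟩ <;> simp [it0, Walk, In, this]
  · simp [oc, od, it0, Function.comp_def]
  · have a := List.countP_le_length (p := fun z : It => decide (0 = x))
      (l := (F.filter nl).map it0)
    have := List.length_filter_le nl F
    rw [List.length_map] at a
    simp only [Nat.mul_zero, Nat.pow_zero, Nat.one_mul]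
    omega
  · obtain ⟨z, hz, e⟩ := of_ends.1 hx
    obtain ⟨y, hy, rfl⟩ := List.mem_map.1 hz
    have := (hF y (List.mem_filter.1 hy).1).2
    rcases e with rfl | rfl
    exacts [this.1, this.2]

theorem li_nil {I0 : List ℕ} {m : ℕ} {s : LvS} (hs : LI E b j h I0 N m dep s) (hb : b < h * dep) :
    s.1 = [] := by
  obtain ⟨blk, -, a⟩ := hs.blk
  refine List.eq_nil_iff_forall_not_mem.2 fun z hz => ?_
  have a1 := a (blk z.1)
  have a2 : 0 < s.1.countP fun y => blk y.1 = blk z.1 := List.countP_pos_iff.2 ⟨z, hz, by simp⟩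
  have a3 : 2 ^ b < 2 ^ (h * dep) := Nat.pow_lt_pow_right (by norm_num) hb
  have := Nat.mul_le_mul_left (2 ^ (h * dep)) a2
  omega

theorem li_fin (hn : (F.map Prod.fst).Nodup) (hF : ∀ z ∈ F, E z.1 = z.2) {S : List ℕ} {D : List Dn}
    (hs : LI E b j h ((F.filter nl).map Prod.fst) N F.length dep ([], S, D)) :
    RouteOK E F (gam b dep) (lam b j dep) S (tbl S D).get := by
  have pm : (S ++ D.map Prod.fst).Perm ((F.filter nl).map Prod.fst) := by simpa using hs.ids
  have nd : (S ++ D.map Prod.fst).Nodup :=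
    pm.nodup_iff.2 (hn.sublist (List.filter_sublist.map _))
  have lp : ∀ z ∈ F, z.2.1 = z.2.2 → (tbl S D).get z.1 = [] := fun z hz e => tbl_out fun g => by
    obtain ⟨y, hy, e'⟩ := List.mem_map.1 (pm.subset g)
    rw [List.mem_filter] at hy
    have := List.inj_on_of_nodup_map hn hy.1 hz e'
    subst this
    simp [nl, e] at hy
  have key : ∀ z ∈ F, Walk E z.2.1 ((tbl S D).get z.1) z.2.2 ∧ In S ((tbl S D).get z.1) ∧
      ((tbl S D).get z.1).length ≤ gam b dep := by
    intro z hz
    by_cases e : z.2.1 = z.2.2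
    · rw [lp z hz e]
      exact ⟨e, by simp [In], by simp⟩
    have a : z.1 ∈ S ++ D.map Prod.fst :=
      pm.symm.subset (List.mem_map_of_mem (List.mem_filter.2 ⟨hz, by simp [nl, e]⟩))
    rcases List.mem_append.1 a with a | a
    · rw [tbl_S nd a]
      refine ⟨by simp [Walk, src, dst, hF z hz], by simpa [In] using a, ?_⟩
      exact Nat.one_le_pow _ _ (by omega)
    · obtain ⟨d, hd, e'⟩ := List.mem_map.1 a
      have := hs.dn d hd
      rw [← e', tbl_D nd hd, ← hF z hz, ← e']
      exact ⟨this.w, this.i, this.l⟩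
  refine ⟨nd.of_append_left, fun s h => ?_, fun z hz => (key z hz).1, fun z hz => (key z hz).2.1,
    fun s h => tbl_S nd h, lp, fun z hz => (key z hz).2.2, fun x => ?_⟩
  · obtain ⟨y, hy, e⟩ := List.mem_map.1 (pm.subset (List.mem_append_left _ h))
    rw [List.mem_filter] at hy
    exact ⟨y, hy.1, e, by simpa [nl] using hy.2⟩
  · rw [sum_filter_eq nl _ F fun z hz e => by rw [lp z hz (by simpa [nl] using e), occ_nil]]
    have a1 := (pm.map fun y => occ x ((tbl S D).get y)).sum_eq
    rw [List.map_append, List.sum_append, List.map_map, List.map_map] at a1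
    have a2 : (S.map fun y => occ x ((tbl S D).get y)).sum ≤ 1 := by
      rw [List.map_congr_left fun y hy => by rw [tbl_S nd hy], sum_occ_single]
      exact List.nodup_iff_count_le_one.1 nd.of_append_left x
    have a3 : (D.map ((fun y => occ x ((tbl S D).get y)) ∘ Prod.fst)).sum = od x D := by
      rw [od, List.map_congr_left fun d hd => by rw [Function.comp_apply, tbl_D nd hd]]
    have a4 : od x D + 1 ≤ lam b j dep :=
      le_trans (Nat.succ_le_succ (Nat.le_add_left _ _)) (hs.occ x)
    rw [a3] at a1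
    exact le_trans (le_of_eq a1.symm) (by omega)

end fin

/-- **The router from the levels.** -/
theorem main : LEVEL → ROUTE := by
  rintro ⟨lv, hi, hl⟩
  refine ⟨mainP lv, impl_mainP hi, fun B d b j h dep E F V hn hF hm hd hj hh hb hB => ?_⟩
  unfold mainP
  refine Vt.tbind' ?_
  simp only [Tri_filterP]
  refine Vt.tbind' ?_
  simp only [Tri_mapP]
  have f1 := List.length_filter_le nl F
  set X := 4 ^ (j + h + 9) * (b + 1) ^ 2 * gam b dep * (F.length + 1) with hX
  refine (Vt.iterM (fun k s t => LI E b j h ((F.filter nl).map Prod.fst) V.card F.length k s ∧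
    t ≤ k * (X + 1)) ⟨li_zero (fun z hz => ⟨(hF z hz).1, (hF z hz).2.1, (hF z hz).2.2.1⟩) hm,
      by simp⟩ fun k s t hk hs => ?_).bind ?_
  · refine (hl B d b j h E _ V.card F.length k s (hn.sublist (List.filter_sublist.map _))
      (by simpa using f1) hm (fun e he => ?_) hd hj hh hB hs.1).mono fun s' t' a => ⟨a.1, ?_⟩
    · obtain ⟨y, hy, rfl⟩ := List.mem_map.1 he
      exact (hF y (List.mem_filter.1 hy).1).2.2.2
    · have a1 : (12 * b + 13) ^ (k + 1) ≤ gam b dep := Nat.pow_le_pow_right (by omega) hk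
      have a2 : t' ≤ X := a.2.trans (Nat.mul_le_mul_right _ (Nat.mul_le_mul_left _ a1))
      have := hs.2
      rw [Nat.add_mul]
      omega
  rintro ⟨c, S, D⟩ t ⟨hs, ht⟩
  obtain rfl : c = [] := li_nil hs hb
  refine Vt.of_tri (cn := true) ?_
  simp only [Tri_bind, Tri_foldP, Tri_pure]
  refine ⟨li_fin hn (fun z hz => (hF z hz).1) hs, hs.size, ?_⟩
  have a1 := hs.ids.length_eq
  simp only [List.map_nil, List.nil_append, List.length_append, List.length_map] at a1
  have a2 : F.length + 1 ≤ X := by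
    have : 1 ≤ 4 ^ (j + h + 9) * (b + 1) ^ 2 * gam b dep := by
      unfold gam
      exact Nat.succ_le_of_lt (by positivity)
    exact Nat.le_mul_of_pos_left _ this
  have a3 : tm b j h dep * (F.length + 1) = 4 * (dep + 1) * X := by
    rw [hX, tm, show j + h + 10 = j + h + 9 + 1 by omega, pow_succ]
    ring
  rw [a3]
  nlinarith

end Vale.Agent.P305R
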