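import Vale.Agent.P305R.Defs

/-!
# Cutting a forest into pieces
-/

namespace Vale.Agent.P305R

open Vale.Agent.P305E

/-- The state: open tokens at a vertex, pieces, ways up. -/
abbrev PcS : Type := Arr (List ℕ) × Arr (ℕ × Bool) × Arr (List Rc)

/-- One edge of the forest. -/
def pcStep (W : ℕ) (s : PcS) (r : Rc) : M PcS :=
  appendP (s.1.get r.1) (s.1.get r.2.1) >>= fun m => lenP m >>= fun k =>
    foldP (fun a i => a.set i (r :: a.get i)) s.2.2 (s.1.get r.1) >>= fun up' =>
    foldP (fun a i => a.set i (if W ≤ k then (r.1, true) else (r.2.1, false))) s.2.1 m >>=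
      fun loc' => pure ((s.1.set r.1 []).set r.2.1 (if W ≤ k then [] else m), loc', up')

@[fun_prop] theorem impl_pcStep : Impl fun p : ℕ × PcS × Rc => pcStep p.1 p.2.1 p.2.2 := by
  unfold pcStep; fun_prop

/-- The program. -/
def piecesP (p : ℕ × List (ℕ × ℕ) × List Rc) : M (Arr (ℕ × Bool) × Arr (List Rc)) :=
  foldP (fun (a : Arr (List ℕ)) q => a.set q.2 (q.1 :: a.get q.2)) (Arr.const []) p.2.1 >>= fun L =>
    foldP (fun (a : Arr (ℕ × Bool)) q => a.set q.1 (q.2, false)) (Arr.const (0, false)) p.2.1 >>=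
      fun loc => foldM (pcStep p.1) (L, loc, Arr.const []) p.2.2 >>= fun s => pure s.2

theorem impl_piecesP : Impl piecesP := by
  unfold piecesP; fun_prop

theorem foldl_setc {α : Type} (x : α) (l : List ℕ) (a : Arr α) (i : ℕ) :
    (l.foldl (fun a i => a.set i x) a).get i = if i ∈ l then x else a.get i := by
  induction l generalizing a with
  | nil => simp
  | cons j l ih =>
    rw [List.foldl_cons, ih, Arr.get_set]
    by_cases h : i ∈ l <;> by_cases e : i = j <;> simp [h, e]

theorem foldl_consc {α : Type} (x : α) {l : List ℕ} (hl : l.Nodup) (a : Arr (List α)) (i : ℕ) :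
    (l.foldl (fun a i => a.set i (x :: a.get i)) a).get i =
      if i ∈ l then x :: a.get i else a.get i := by
  induction l generalizing a with
  | nil => simp
  | cons j l ih =>
    obtain ⟨h1, h2⟩ := List.nodup_cons.1 hl
    rw [List.foldl_cons, ih h2, Arr.get_set]
    by_cases e : i = j
    · subst e
      simp [h1]
    · simp [e]

theorem foldl_bucket (tok : List (ℕ × ℕ)) (a : Arr (List ℕ)) (x : ℕ) :
    (tok.foldl (fun (a : Arr (List ℕ)) q => a.set q.2 (q.1 :: a.get q.2)) a).get x =
      ((tok.filter fun q => q.2 = x).map Prod.fst).reverse ++ a.get x := by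
  induction tok generalizing a with
  | nil => simp
  | cons q l ih =>
    rw [List.foldl_cons, ih, Arr.get_set, List.filter_cons]
    by_cases e : q.2 = x
    · subst e
      simp
    · simp [e, Ne.symm e]

theorem foldl_loc {tok : List (ℕ × ℕ)} (h : (tok.map Prod.fst).Nodup) (a : Arr (ℕ × Bool)) :
    (∀ q ∈ tok, (tok.foldl (fun (a : Arr (ℕ × Bool)) q => a.set q.1 (q.2, false)) a).get q.1 =
      (q.2, false)) ∧ ∀ i, i ∉ tok.map Prod.fst →
      (tok.foldl (fun (a : Arr (ℕ × Bool)) q => a.set q.1 (q.2, false)) a).get i = a.get i := by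
  induction tok generalizing a with
  | nil => simp
  | cons q l ih =>
    rw [List.map_cons, List.nodup_cons] at h
    obtain ⟨a1, a2⟩ := ih h.2 (a.set q.1 (q.2, false))
    refine ⟨fun q' hq' => ?_, fun i hi => ?_⟩
    · rcases List.mem_cons.1 hq' with rfl | hq'
      · rw [List.foldl_cons, a2 _ h.1, Arr.get_set_self]
      · exact a1 q' hq'
    · rw [List.map_cons, List.mem_cons, not_or] at hi
      rw [List.foldl_cons, a2 _ hi.2, Arr.get_set_ne _ hi.1]

theorem countP_eq_len {ids l : List ℕ} {P : ℕ → Prop} [DecidablePred P] (h : ids.Nodup)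
    (hl : l.Nodup) (hm : ∀ i, i ∈ l ↔ i ∈ ids ∧ P i) : ids.countP (P ·) = l.length := by
  rw [List.countP_eq_length_filter]
  refine List.Perm.length_eq ((List.perm_ext_iff_of_nodup (h.filter _) hl).2 fun i => ?_)
  simp [hm]

/-- The root of a piece. -/
def rtf (par : ℕ → ℕ) (P : ℕ × Bool) : ℕ := if P.2 = true then par P.1 else P.1

/-- The invariant after the edges `pre`. -/
structure PcI (W : ℕ) (tok : List (ℕ × ℕ)) (ord pre : List Rc) (par : ℕ → ℕ) (L : ℕ → List ℕ)
    (loc : ℕ → ℕ × Bool) (up : ℕ → List Rc) : Prop where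
  path : ∀ q ∈ tok, Up ord q.2 (up q.1) (rtf par (loc q.1))
  mem : ∀ x i, i ∈ L x ↔ i ∈ tok.map Prod.fst ∧ loc i = (x, false)
  nd : ∀ x, (L x).Nodup
  len : ∀ x, (L x).length < W
  opn : ∀ i ∈ tok.map Prod.fst, ∀ x, loc i = (x, false) → x ∉ pre.map Prod.fst
  cls : ∀ i ∈ tok.map Prod.fst, ∀ y, loc i = (y, true) → y ∈ pre.map Prod.fst ∧
    W ≤ (tok.map Prod.fst).countP (loc · = (y, true))
  small : ∀ y, (tok.map Prod.fst).countP (loc · = (y, true)) ≤ 2 * W
  sub : ∀ i, ∀ r ∈ up i, r ∈ pre
  same : ∀ i ∈ tok.map Prod.fst, ∀ i' ∈ tok.map Prod.fst, ∀ r ∈ up i, ∀ r' ∈ up i',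
    r.1 = r'.1 → loc i = loc i'

theorem PcI.step {W : ℕ} {tok : List (ℕ × ℕ)} {ord pre rest : List Rc} {r : Rc} {par : ℕ → ℕ}
    {L L' : ℕ → List ℕ} {loc loc' : ℕ → ℕ × Bool} {up up' : ℕ → List Rc}
    (hn : (tok.map Prod.fst).Nodup) (hf : Fo ord) (e : ord = pre ++ r :: rest)
    (hp : par r.1 = r.2.1) (h : PcI W tok ord pre par L loc up) {X : ℕ × Bool} {m' : List ℕ}
    (hX : (W ≤ (L r.1 ++ L r.2.1).length ∧ X = (r.1, true) ∧ m' = []) ∨
      ((L r.1 ++ L r.2.1).length < W ∧ X = (r.2.1, false) ∧ m' = L r.1 ++ L r.2.1))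
    (hL : ∀ x, L' x = if x = r.2.1 then m' else if x = r.1 then [] else L x)
    (hloc : ∀ i, loc' i = if i ∈ L r.1 ++ L r.2.1 then X else loc i)
    (hup : ∀ i, up' i = if i ∈ L r.1 then r :: up i else up i) :
    PcI W tok ord (pre ++ [r]) par L' loc' up' := by
  have hr : r ∈ ord := by simp [e]
  have hne := hf.ne r hr
  have hv : r.1 ∉ pre.map Prod.fst := by
    have := hf.nd
    rw [e, List.map_append, List.map_cons, List.nodup_append] at this
    exact fun h' => this.2.2 _ h' _ (by simp) rfl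
  have hpp : r.2.1 ∉ pre.map Prod.fst := by
    have := hf.pw
    rw [e, List.pairwise_append] at this
    intro h'
    obtain ⟨r0, h0, e0⟩ := List.mem_map.1 h'
    exact this.2.2 r0 h0 r (by simp) e0.symm
  have hm : ∀ i, i ∈ L r.1 ++ L r.2.1 ↔
      i ∈ tok.map Prod.fst ∧ (loc i = (r.1, false) ∨ loc i = (r.2.1, false)) := fun i => by
    rw [List.mem_append, h.mem, h.mem, and_or_left]
  have hmn : (L r.1 ++ L r.2.1).Nodup := by
    refine List.nodup_append.2 ⟨h.nd _, h.nd _, ?_⟩
    rintro i hi _ hi' rfl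
    have := ((h.mem _ _).1 hi).2.symm.trans ((h.mem _ _).1 hi').2
    exact hne (congrArg Prod.fst this).symm
  have hrt : rtf par X = r.2.1 := by rcases hX with ⟨_, rfl, _⟩ | ⟨_, rfl, _⟩ <;> simp [rtf, hp]
  have hW : 0 < W := by have := h.len 0; omega
  have keep : ∀ y, X ≠ (y, true) → (tok.map Prod.fst).countP (loc' · = (y, true)) =
      (tok.map Prod.fst).countP (loc · = (y, true)) := fun y hy => by
    refine List.countP_congr fun j _ => ?_
    rw [hloc]
    split_ifs with hj
    · rcases ((hm j).1 hj).2 with e' | e' <;> simp [hy, e']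
    · rfl
  have new : X = (r.1, true) → (tok.map Prod.fst).countP (loc' · = (r.1, true)) =
      (L r.1 ++ L r.2.1).length := fun hx => by
    refine countP_eq_len (P := fun j => loc' j = (r.1, true)) hn hmn fun j => ?_
    rw [hloc]
    split_ifs with hj
    · exact ⟨fun _ => ⟨((hm j).1 hj).1, hx⟩, fun _ => hj⟩
    · exact ⟨fun h' => absurd h' hj, fun h' => absurd (h.cls j h'.1 _ h'.2).1 hv⟩
  refine ⟨fun q hq => ?_, fun x i => ?_, fun x => ?_, fun x => ?_, fun i hi x => ?_,
    fun i hi y => ?_, fun y => ?_, fun i r' => ?_, fun i hi i' hi' a ha a' ha' ea => ?_⟩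
  · have hq' : q.1 ∈ tok.map Prod.fst := List.mem_map_of_mem hq
    have := h.path q hq
    rw [hloc, hup]
    by_cases h1 : q.1 ∈ L r.1
    · rw [if_pos h1, if_pos (List.mem_append_left _ h1), hrt]
      rw [((h.mem _ _).1 h1).2] at this
      exact Up.cons this hr
    · rw [if_neg h1]
      split_ifs with h2
      · rw [((h.mem _ _).1 ((List.mem_append.1 h2).resolve_left h1)).2] at this
        rwa [hrt]
      · exact this
  · rw [hL, hloc]
    by_cases hi : i ∈ L r.1 ++ L r.2.1
    · obtain ⟨a1, a2⟩ := (hm i).1 hi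
      rw [if_pos hi]
      by_cases e1 : x = r.2.1
      · subst e1
        rcases hX with ⟨_, rfl, rfl⟩ | ⟨_, rfl, rfl⟩
        · simp
        · simp only [if_true, hi, a1, and_self]
      · have : X ≠ (x, false) := by
          rcases hX with ⟨_, rfl, _⟩ | ⟨_, rfl, _⟩
          · simp
          · simpa using Ne.symm e1
        rw [if_neg e1]
        by_cases e2 : x = r.1
        · simp [e2 ▸ this, e2]
        · rw [if_neg e2, h.mem]
          refine ⟨fun h' => ?_, fun h' => absurd h'.2 this⟩
          rcases a2 with a2 | a2 <;> rw [a2] at h' <;> simp only [Prod.mk.injEq] at h'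
          · exact absurd h'.2.1.symm e2
          · exact absurd h'.2.1.symm e1
    · rw [if_neg hi]
      have hi' := mt (hm i).2 hi
      by_cases e1 : x = r.2.1
      · subst e1
        refine ⟨fun h' => ?_, fun h' => absurd ⟨h'.1, Or.inr h'.2⟩ hi'⟩
        rcases hX with ⟨_, _, rfl⟩ | ⟨_, _, rfl⟩
        · simp at h'
        · simp only [if_true] at h'
          exact absurd h' hi
      · rw [if_neg e1]
        by_cases e2 : x = r.1
        · subst e2
          simp only [if_true, List.not_mem_nil, false_iff]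
          exact fun h' => hi' ⟨h'.1, Or.inl h'.2⟩
        · rw [if_neg e2, h.mem]
  · rw [hL]
    split_ifs
    · rcases hX with ⟨_, _, rfl⟩ | ⟨_, _, rfl⟩
      · simp
      · exact hmn
    · simp
    · exact h.nd x
  · rw [hL]
    split_ifs
    · rcases hX with ⟨_, _, rfl⟩ | ⟨a, _, rfl⟩
      · exact hW
      · exact a
    · exact hW
    · exact h.len x
  · rw [List.map_append, List.mem_append, not_or, hloc]
    simp only [List.map_cons, List.map_nil, List.mem_singleton]
    split_ifs with h1
    · rcases hX with ⟨_, rfl, _⟩ | ⟨_, rfl, _⟩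
      · simp
      · rintro ⟨⟩
        exact ⟨hpp, hne⟩
    · exact fun h2 => ⟨h.opn i hi x h2, fun e' => h1 ((hm i).2 ⟨hi, Or.inl (e' ▸ h2)⟩)⟩
  · rw [List.map_append, List.mem_append, hloc]
    split_ifs with h1
    · rcases hX with ⟨a, rfl, _⟩ | ⟨_, rfl, _⟩
      · rintro ⟨⟩
        exact ⟨Or.inr (by simp), by rwa [new rfl]⟩
      · simp
    · intro h2
      obtain ⟨a1, a2⟩ := h.cls i hi y h2
      refine ⟨Or.inl a1, ?_⟩
      rwa [keep]
      rcases hX with ⟨_, rfl, _⟩ | ⟨_, rfl, _⟩
      · rintro ⟨⟩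
        exact hv a1
      · simp
  · by_cases hy : X = (y, true)
    · rcases hX with ⟨_, rfl, _⟩ | ⟨_, rfl, _⟩
      · cases hy
        rw [new rfl, List.length_append]
        have := h.len r.1
        have := h.len r.2.1
        omega
      · cases hy
    · rw [keep y hy]
      exact h.small y
  · rw [hup, List.mem_append, List.mem_singleton]
    split_ifs
    · intro h'
      rcases List.mem_cons.1 h' with rfl | h'
      · exact Or.inr rfl
      · exact Or.inl (h.sub i r' h')
    · exact fun h' => Or.inl (h.sub i r' h')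
  · have cs : ∀ j, ∀ b ∈ up' j, (b = r ∧ j ∈ L r.1) ∨ b ∈ up j := fun j b hb => by
      rw [hup] at hb
      split_ifs at hb with h1
      · exact (List.mem_cons.1 hb).imp_left fun e' => ⟨e', h1⟩
      · exact Or.inr hb
    have no : ∀ j, ∀ b ∈ up j, b.1 ≠ r.1 := fun j b hb e' =>
      hv (e' ▸ List.mem_map_of_mem (h.sub j b hb))
    rw [hloc, hloc]
    rcases cs i a ha with ⟨rfl, h1⟩ | h1 <;> rcases cs i' a' ha' with ⟨rfl, h2⟩ | h2
    · rw [if_pos (List.mem_append_left _ h1), if_pos (List.mem_append_left _ h2)]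
    · exact absurd ea.symm (no _ _ h2)
    · exact absurd ea (no _ _ h1)
    · have := h.same i hi i' hi' a h1 a' h2 ea
      simp only [hm, hi, hi', this]

theorem exists_par {ord : List Rc} (h : (ord.map Prod.fst).Nodup) :
    ∃ par : ℕ → ℕ, ∀ r ∈ ord, par r.1 = r.2.1 := by
  induction ord with
  | nil => exact ⟨id, by simp⟩
  | cons a l ih =>
    rw [List.map_cons, List.nodup_cons] at h
    obtain ⟨par, hp⟩ := ih h.2
    refine ⟨Function.update par a.1 a.2.1, fun r hr => ?_⟩
    rcases List.mem_cons.1 hr with rfl | hr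
    · simp
    · rw [Function.update_of_ne fun e : r.1 = a.1 => h.1 (e ▸ List.mem_map_of_mem hr), hp r hr]

theorem pieces : PIECES := by
  refine ⟨piecesP, impl_piecesP, fun c W tok ord hn hW hf hB => ?_⟩
  obtain ⟨par, hp⟩ := exists_par hf.nd
  unfold piecesP
  simp only [Tri_bind, Tri_foldP, Tri_pure]
  refine (Tri.foldM (fun pre s t => t ≤ (6 * W + 1) * pre.length ∧
    PcI W tok ord pre par s.1.get s.2.1.get s.2.2.get) ⟨le_rfl, ?_⟩ ?_).mono ?_
  · obtain ⟨a1, a2⟩ := foldl_loc hn (Arr.const (0, false))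
    have a3 : ∀ i ∈ tok.map Prod.fst, ∀ y, (tok.foldl (fun (a : Arr (ℕ × Bool)) q =>
        a.set q.1 (q.2, false)) (Arr.const (0, false))).get i ≠ (y, true) := fun i hi y => by
      obtain ⟨q, hq, rfl⟩ := List.mem_map.1 hi
      simp [a1 q hq]
    refine ⟨fun q hq => ?_, fun x i => ?_, fun x => ?_, fun x => ?_, by simp,
      fun i hi y h => absurd h (a3 i hi y), fun y => ?_, by simp, by simp⟩
    · rw [a1 q hq]
      exact Up.nil
    · simp only [foldl_bucket, Arr.get_const, List.append_nil, List.mem_reverse, List.mem_map,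
        List.mem_filter, decide_eq_true_eq]
      constructor
      · rintro ⟨q, ⟨hq, rfl⟩, rfl⟩
        exact ⟨⟨q, hq, rfl⟩, a1 q hq⟩
      · rintro ⟨⟨q, hq, rfl⟩, h⟩
        rw [a1 q hq] at h
        exact ⟨q, ⟨hq, congrArg Prod.fst h⟩, rfl⟩
    · simp only [foldl_bucket, Arr.get_const, List.append_nil, List.nodup_reverse]
      exact hn.sublist (List.filter_sublist.map _)
    · have := hW x
      rw [List.count_eq_countP, List.countP_map, List.countP_eq_length_filter] at this
      simp only [foldl_bucket, Arr.get_const, List.append_nil, List.length_reverse,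
        List.length_map]
      exact this
    · rw [List.countP_eq_zero.2 fun i hi => by simpa using a3 i hi y]
      omega
  · rintro pre r rest s t e ⟨ht, hI⟩
    have l1 := hI.len r.1
    have l2 := hI.len r.2.1
    unfold pcStep
    simp only [Tri_bind, Tri_appendP, Tri_lenP, Tri_foldP, Tri_pure, List.length_append,
      List.length_singleton, Nat.mul_add]
    refine ⟨by omega, by omega, hI.step hn hf e (hp r (by simp [e])) (X := _) (m' := _) ?_
      (fun x => by rw [Arr.get_set, Arr.get_set]) (fun i => foldl_setc _ _ _ _)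
      fun i => foldl_consc _ (hI.nd _) _ _⟩
    rw [List.length_append]
    split_ifs with h1
    · exact Or.inl ⟨h1, rfl, rfl⟩
    · exact Or.inr ⟨by omega, rfl, rfl⟩
  · rintro s t ⟨ht, hI⟩
    have cm : ∀ P, (tok.countP fun q => s.2.1.get q.1 = P) =
        (tok.map Prod.fst).countP (s.2.1.get · = P) := fun P => by rw [List.countP_map]; rfl
    refine ⟨⟨rtf par, hI.path, fun q hq h => ?_, fun q hq h => ?_, fun P => ?_,
      fun q hq q' hq' => hI.same _ (List.mem_map_of_mem hq) _ (List.mem_map_of_mem hq')⟩, ?_⟩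
    · exact ⟨by simp [rtf, h], hI.opn _ (List.mem_map_of_mem hq) _ (Prod.ext rfl h)⟩
    · have e : s.2.1.get q.1 = ((s.2.1.get q.1).1, true) := Prod.ext rfl h
      obtain ⟨a1, a2⟩ := hI.cls _ (List.mem_map_of_mem hq) _ e
      obtain ⟨r, hr, er⟩ := List.mem_map.1 a1
      refine ⟨⟨r, hr, er, by simp [rtf, h, ← er, hp r hr]⟩, ?_⟩
      rwa [cm, e]
    · rw [cm]
      obtain ⟨x, _ | _⟩ := P
      · rw [countP_eq_len (P := fun j => s.2.1.get j = (x, false)) hn (hI.nd x) (hI.mem x)]
        have := hI.len x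
        omega
      · exact hI.small x
    · nlinarith

end Vale.Agent.P305R
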