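import Vale.Agent.P305R.Defs

/-!
# Sampling edges: few are taken, and every large set of crossing edges is hit
-/

namespace Vale.Agent.P305R

open Vale.Agent.P305E Vale.Agent.P305C

/-- Every edge goes to the first list with probability `2 ^ (-j)`. -/
def smp (j : ℕ) (F : List It) : M (List It × List It) :=
  foldM (fun acc z => rbits j >>= fun x =>
    pure (if x = 0 then (z :: acc.1, acc.2) else (acc.1, z :: acc.2))) ([], []) F

theorem impl_smp : Impl fun p : ℕ × List It => smp p.1 p.2 := by
  unfold smp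
  fun_prop

variable {B j : ℕ}

theorem smp_tri (h : 2 ^ j ≤ B) (F : List It) : Tri ⟨B, true⟩ (smp j F) fun r t =>
    (r.1 ++ r.2).Perm F ∧ t ≤ (2 * j + 1) * F.length := by
  refine Tri.foldM (fun pre (acc : List It × List It) t =>
    (acc.1 ++ acc.2).Perm pre ∧ t ≤ (2 * j + 1) * pre.length) (by simp) ?_
  rintro pre z rest acc t - ⟨h1, h2⟩
  rw [Tri_bind]
  refine (Tri.rbits h).mono ?_
  rintro x _ ⟨-, rfl⟩
  have k : (z :: (acc.1 ++ acc.2)).Perm (pre ++ [z]) :=
    (h1.cons z).trans (List.perm_append_singleton z pre).symm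
  refine ⟨?_, ?_⟩
  · split_ifs
    · exact k
    · exact List.perm_middle.trans k
  · rw [List.length_append, List.length_singleton, Nat.mul_succ]
    omega

/-- The expectation of a product over the sample. -/
theorem smp_wp (h : 2 ^ j ≤ B) (F : List It) {g : It → ℝ} (hg : ∀ z, 0 ≤ g z) :
    wp B (smp j F) (fun r _ => (r.1.map g).prod) 0 ≤
      Real.exp ((F.map fun z => g z - 1).sum / 2 ^ j) := by
  have := wp_foldM_le (B := B) (f := fun (acc : List It × List It) z => rbits j >>= fun x =>
      pure (if x = 0 then (z :: acc.1, acc.2) else (acc.1, z :: acc.2))) (l := F) (s := ([], []))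
    (G := fun r _ => (r.1.map g).prod) (p := 0) (fun _ _ _ => True)
    (fun pre acc _ => (acc.1.map g).prod *
      Real.exp (((F.drop pre.length).map fun z => g z - 1).sum / 2 ^ j)) trivial
    (fun _ _ _ _ _ _ _ => Par_true _)
    (fun pre z rest acc t e _ => by
      have e1 : F.drop pre.length = z :: rest := by simp [e]
      have e2 : F.drop (pre ++ [z]).length = rest := by simp [e]
      have p0 : 0 ≤ (acc.1.map g).prod := List.prod_nonneg (by
        simp only [List.mem_map]
        rintro _ ⟨y, -, rfl⟩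
        exact hg y)
      obtain ⟨m, hm⟩ : ∃ m, 2 ^ j = m + 1 := Nat.exists_eq_succ_of_ne_zero (by positivity)
      have hm' : (2 : ℝ) ^ j = m + 1 := by exact_mod_cast hm
      simp only [wp_bind, wp_pure, e1, e2, wp_rbits h, List.map_cons, List.sum_cons, add_div,
        Real.exp_add]
      rw [hm, Finset.sum_range_succ']
      simp only [Nat.succ_ne_zero, if_false, if_true, Finset.sum_const, Finset.card_range,
        nsmul_eq_mul, List.map_cons, List.prod_cons]
      have p1 := Real.exp_pos ((rest.map fun z => g z - 1).sum / 2 ^ j)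
      have p2 := Real.add_one_le_exp ((g z - 1) / 2 ^ j)
      generalize Real.exp ((rest.map fun z => g z - 1).sum / 2 ^ j) = R at *
      have p3 := mul_le_mul_of_nonneg_left p2 (mul_nonneg p0 p1.le)
      refine le_trans (le_of_eq ?_) (p3.trans (le_of_eq (by ring)))
      rw [hm']
      field_simp
      ring)
    (fun _ _ _ => by simp)
  simpa [smp] using this

/-- A labelling of the vertices below `n`, extended by zero. -/
def ext {n : ℕ} (χ : Fin n → ℕ) (v : ℕ) : ℕ := if h : v < n then χ ⟨v, h⟩ else 0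

theorem cross_ext {n : ℕ} {F : List It} (hF : ∀ x ∈ ends F, x < n) (χ : ℕ → ℕ) {z : It}
    (hz : z ∈ F) : Cross (ext fun i : Fin n => χ i) z ↔ Cross χ z := by
  have h1 : z.1 < n := hF _ (List.mem_flatMap.2 ⟨z, hz, by simp⟩)
  have h2 : z.2.1 < n := hF _ (List.mem_flatMap.2 ⟨z, hz, by simp⟩)
  simp only [Cross, ext, dif_pos h1, dif_pos h2]

theorem sum_cross (χ : ℕ → ℕ) (F : List It) :
    (F.map fun z => (if Cross χ z then (0 : ℝ) else 1) - 1).sum = -F.countP (Cross χ ·) := by
  induction F with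
  | nil => simp
  | cons z F ih =>
    rw [List.map_cons, List.sum_cons, ih, List.countP_cons]
    by_cases h : Cross χ z <;> simp [h]

theorem two_pow_le_exp (k : ℕ) : (2 : ℝ) ^ k ≤ Real.exp k := by
  rw [← Real.exp_one_pow]
  exact pow_le_pow_left₀ (by norm_num) (by linarith [Real.add_one_le_exp 1]) k

/-- The probability that the sample is too large or misses a large set of crossing edges. -/
theorem smp_pr (h : 2 ^ j ≤ B) {b n : ℕ} {F : List It} (hF : ∀ x ∈ ends F, x < n)
    (hn : n ≤ 2 ^ (b + 1)) : pr B (smp j F) (fun r _ =>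
      ¬ (2 ^ j * r.1.length ≤ 2 * F.length + 2 ^ j * (b + 2) ∧
        Good n (2 ^ j * ((b + 2) * n + b + 2)) F r.1)) ≤ 1 / 2 ^ (b + 1) := by
  obtain ⟨X, hX⟩ : ∃ X : Finset (Fin n → ℕ),
      X = (Fintype.piFinset fun _ => Finset.range (n + 2)).filter fun χ =>
        2 ^ j * ((b + 2) * n + b + 2) < F.countP (Cross (ext χ) ·) := ⟨_, rfl⟩
  obtain ⟨c, hc⟩ : ∃ c : ℝ, c = Real.exp (-(F.length / 2 ^ j)) / 2 ^ (b + 2) := ⟨_, rfl⟩
  have c0 : 0 < c := by rw [hc]; positivity
  have g0 : ∀ (χ : ℕ → ℕ) (z : It), (0 : ℝ) ≤ if Cross χ z then 0 else 1 := fun χ z => by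
    split_ifs <;> norm_num
  have q0 : ∀ (χ : ℕ → ℕ) (l : List It),
      0 ≤ (l.map fun z => if Cross χ z then (0 : ℝ) else 1).prod := fun χ l =>
    List.prod_nonneg (by
      simp only [List.mem_map]
      rintro _ ⟨y, -, rfl⟩
      exact g0 χ y)
  have j0 : (0 : ℝ) < 2 ^ j := by positivity
  refine (pr_le_of_Tri (c := ⟨B, true⟩) (smp_tri h F) (F := fun r _ =>
    c * (r.1.map fun _ => (2 : ℝ)).prod +
      ∑ χ ∈ X, (r.1.map fun z => if Cross (ext χ) z then (0 : ℝ) else 1).prod) ?_ ?_ (c * 0 +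
        ∑ _χ ∈ X, 0)).trans ?_
  · intro r t _
    have := Finset.sum_nonneg fun χ (_ : χ ∈ X) => q0 (ext χ) r.1
    simp only [List.map_const', List.prod_replicate]
    positivity
  · intro r t hr hb
    have s0 := Finset.sum_nonneg fun χ (_ : χ ∈ X) => q0 (ext χ) r.1
    simp only [List.map_const', List.prod_replicate]
    by_cases h1 : 2 ^ j * r.1.length ≤ 2 * F.length + 2 ^ j * (b + 2)
    · have h2 : ¬ Good n (2 ^ j * ((b + 2) * n + b + 2)) F r.1 := fun k => hb ⟨h1, k⟩
      simp only [Good, not_forall, not_le] at h2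
      obtain ⟨χ, k1, k2, k3⟩ := h2
      have m : (fun i : Fin n => χ i) ∈ X := by
        rw [hX, Finset.mem_filter, Fintype.mem_piFinset]
        refine ⟨fun i => Finset.mem_range.2 (k1 i), k3.trans_le (le_of_eq ?_)⟩
        exact List.countP_congr fun z hz => by simp [cross_ext hF χ hz]
      have e : (r.1.map fun z => if Cross (ext fun i : Fin n => χ i) z then (0 : ℝ) else 1).prod
          = 1 := List.prod_eq_one (by
        simp only [List.mem_map]
        rintro _ ⟨z, hz, rfl⟩
        rw [if_neg]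
        rw [cross_ext hF χ (hr.1.subset (List.mem_append_left _ hz))]
        exact k2 z hz)
      have := Finset.single_le_sum (f := fun χ : Fin n → ℕ =>
        (r.1.map fun z => if Cross (ext χ) z then (0 : ℝ) else 1).prod)
        (fun χ _ => q0 (ext χ) r.1) m
      rw [e] at this
      have : 0 ≤ c * 2 ^ r.1.length := by positivity
      linarith
    · have h2 : ((2 * F.length + 2 ^ j * (b + 2) : ℕ) : ℝ) ≤ (2 ^ j * r.1.length : ℕ) :=
        Nat.cast_le.2 (not_le.1 h1).le
      push_cast at h2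
      have h3 : 2 * (F.length / 2 ^ j) + (b + 2) ≤ (r.1.length : ℝ) := by
        refine le_of_mul_le_mul_left (le_trans (le_of_eq ?_) h2) j0
        field_simp
      have l2 : 1 / 2 ≤ Real.log 2 := by
        have := Real.one_sub_inv_le_log_of_pos (show (0 : ℝ) < 2 by norm_num)
        linarith
      have h4 : (0 : ℝ) ≤ F.length / 2 ^ j := by positivity
      have h5 : ∀ k : ℕ, (2 : ℝ) ^ k = Real.exp (Real.log 2 * k) := fun k => by
        rw [mul_comm, Real.exp_nat_mul, Real.exp_log (by norm_num)]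
      have h6 : 1 ≤ c * 2 ^ r.1.length := by
        rw [hc, h5 (b + 2), h5 r.1.length, ← Real.exp_sub, ← Real.exp_add]
        refine Real.one_le_exp ?_
        push_cast
        nlinarith
      linarith
  · rw [wp_add, wp_mul_left, wp_sum]
    have a1 := mul_le_mul_of_nonneg_left (smp_wp h F (g := fun _ => 2) fun _ => by norm_num) c0.le
    have a2 : c * Real.exp ((F.map fun _ => (2 : ℝ) - 1).sum / 2 ^ j) = 1 / 2 ^ (b + 2) := by
      simp only [List.map_const', List.sum_replicate, nsmul_eq_mul]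
      rw [hc, div_mul_eq_mul_div, ← Real.exp_add]
      norm_num
    have a3 : ∀ χ ∈ X, wp B (smp j F) (fun r _ =>
        (r.1.map fun z => if Cross (ext χ) z then (0 : ℝ) else 1).prod) 0 ≤
        Real.exp (-((b + 2 : ℕ) * n + (b + 2 : ℕ))) := fun χ hχ => by
      refine (smp_wp h F (g0 (ext χ))).trans (Real.exp_le_exp.2 ?_)
      rw [hX, Finset.mem_filter] at hχ
      have := (Nat.cast_le (α := ℝ)).2 hχ.2.le
      rw [sum_cross, div_le_iff₀ j0]
      push_cast at this ⊢
      linarith
    have a4 := Finset.sum_le_card_nsmul X _ _ a3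
    have a5 : (X.card : ℝ) ≤ Real.exp ((b + 2 : ℕ) * n) := by
      have : X.card ≤ (2 ^ (b + 2)) ^ n := by
        rw [hX]
        refine (Finset.card_filter_le _ _).trans ?_
        rw [Fintype.card_piFinset]
        simp only [Finset.card_range, Finset.prod_const, Finset.card_univ, Fintype.card_fin]
        refine Nat.pow_le_pow_left ?_ n
        have := Nat.one_le_two_pow (n := b)
        rw [pow_succ] at hn
        rw [pow_succ, pow_succ]
        omega
      refine (Nat.cast_le.2 this).trans ?_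
      rw [← pow_mul]
      exact_mod_cast two_pow_le_exp ((b + 2) * n)
    have a6 : Real.exp ((b + 2 : ℕ) * n) * Real.exp (-((b + 2 : ℕ) * n + (b + 2 : ℕ))) ≤
        1 / 2 ^ (b + 2) := by
      rw [← Real.exp_add, show ((b + 2 : ℕ) : ℝ) * n + -((b + 2 : ℕ) * n + (b + 2 : ℕ)) =
        -((b + 2 : ℕ) : ℝ) by ring, Real.exp_neg, one_div]
      exact inv_anti₀ (by positivity) (two_pow_le_exp _)
    have a7 := mul_le_mul_of_nonneg_right a5
      (Real.exp_pos (-((b + 2 : ℕ) * n + (b + 2 : ℕ)))).le
    have a8 : (1 : ℝ) / 2 ^ (b + 1) = 1 / 2 ^ (b + 2) + 1 / 2 ^ (b + 2) := by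
      field_simp
      ring
    rw [nsmul_eq_mul] at a4
    linarith

/-- An event of probability less than one fails on some path. -/
theorem exists_of_pr {β : Type} {m : M β} {P bad : β → ℕ → Prop} (h : Tri ⟨B, true⟩ m P)
    (hp : pr B m bad < 1) : ∃ b t, P b t ∧ ¬ bad b t := by
  by_contra! k
  refine absurd hp (not_lt.2 ?_)
  unfold pr
  exact const_le_wp_of_Tri (c := ⟨B, true⟩) h (fun b t hb => by simp [k b t hb]) _

theorem sample : SAMPLE := by
  refine ⟨fun p => smp p.1 p.2, impl_smp, fun B d b j n F hF hn _ hd h => ?_⟩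
  have h1 := smp_pr h (b := b) hF hn
  have h2 : (1 : ℝ) / 2 ^ (b + 1) < 1 := by
    rw [div_lt_one (by positivity)]
    exact one_lt_pow₀ (by norm_num) (by omega)
  obtain ⟨r, t, k1, k2⟩ := exists_of_pr (smp_tri h F) (h1.trans_lt h2)
  refine (Vt.of_whp (P := fun r _ => (r.1 ++ r.2).Perm F) (S := (2 * j + 1) * F.length + 1)
    (smp_tri h F) (Nat.le_succ _) (h1.trans (one_le_div (by omega)))
    ⟨r, t, k1.1, not_not.1 k2⟩).mono ?_
  rintro r s ⟨⟨_, k3⟩, k4, rfl⟩
  exact ⟨k3, k4.1, k4.2, by nlinarith⟩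

end Vale.Agent.P305R
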