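import Vale.Agent.P305R.Cnt
import Vale.Agent.P305R.Balls
import Vale.Agent.P305R.Pieces
import Vale.Agent.P305R.Sample

/-!
# The router: the program of one round
-/

namespace Vale.Agent.P305R

open Vale.Agent.P305E

/-- A finished edge with its route. -/
abbrev Dn : Type := ℕ × List St
/-- The state of the rounds: remaining edges, usage, edges of the next level, finished edges. -/
abbrev RS : Type := List It × Arr ℕ × List It × List Dn
/-- The numbers `b, D, W, cap, M`. -/
abbrev Pm : Type := ℕ × ℕ × ℕ × ℕ × ℕ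
/-- Adjacency lists. -/
abbrev Adj : Type := Arr (List (ℕ × List St))
/-- Programs for balls. -/
abbrev BlP : Type := (ℕ × ℕ) × Adj × Arr ℕ × Arr ℕ × List ℕ → M (Arr ℕ × List Rc)
/-- Programs for pieces. -/
abbrev PcP : Type := ℕ × List (ℕ × ℕ) × List Rc → M (Arr (ℕ × Bool) × Arr (List Rc))

/-- The tokens: one for each end. -/
def toks (R : List It) : List (ℕ × ℕ) :=
  R.flatMap fun z => [(2 * z.2.2.1, z.1), (2 * z.2.2.1 + 1, z.2.1)]

/-- The program for the tokens. -/
def tokP (R : List It) : M (List (ℕ × ℕ)) :=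
  mapM' (fun z => num (2 * z.2.2.1 + 1) >>= fun t => pure [(t - 1, z.1), (t, z.2.1)]) R >>= flattenP

/-- The number of a piece. -/
def ix (P : ℕ × Bool) : ℕ := 2 * P.1 + if P.2 = true then 1 else 0
/-- The piece of the first end. -/
def ka (loc : Arr (ℕ × Bool)) (z : It) : ℕ := ix (loc.get (2 * z.2.2.1))
/-- The piece of the second end. -/
def kb (loc : Arr (ℕ × Bool)) (z : It) : ℕ := ix (loc.get (2 * z.2.2.1 + 1))
/-- Both ends are in the same ball. -/
def intra (cl : Arr ℕ) (z : It) : Bool := decide (2 ≤ cl.get z.1 ∧ cl.get z.1 = cl.get z.2.1)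
/-- The walk along a path in the forest. -/
def pw (u : List Rc) : List St := (u.reverse.map fun r => r.2.2).flatten
/-- The longer first walk. -/
def wa (up : Arr (List Rc)) (z : It) : List St := z.2.2.2.1 ++ pw (up.get (2 * z.2.2.1))
/-- The longer second walk. -/
def wb (up : Arr (List Rc)) (z : It) : List St := z.2.2.2.2 ++ pw (up.get (2 * z.2.2.1 + 1))
/-- An edge of the next level. -/
def nw (o : ℕ) (loc : Arr (ℕ × Bool)) (up : Arr (List Rc)) (z : It) : It :=
  (o + ka loc z, o + kb loc z, z.2.2.1, wa up z, wb up z)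
/-- A finished edge. -/
def dn (up : Arr (List Rc)) (z : It) : Dn := (z.2.2.1, wa up z ++ rev (wb up z))
/-- The edges of the forest that are used. -/
def used (up : Arr (List Rc)) (tk : List It) : List Rc :=
  tk.flatMap fun z => up.get (2 * z.2.2.1) ++ up.get (2 * z.2.2.1 + 1)

/-- Extending a walk. -/
def extW (A : List St) (u : List Rc) : M (List St) :=
  revP u >>= fun u' => mapP (fun r => r.2.2) u' >>= fun x => flattenP x >>= fun y => appendP A y

/-- The program for `nw`. -/
def nwP (r K : ℕ) (loc : Arr (ℕ × Bool)) (up : Arr (List Rc)) (z : It) : M It :=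
  extW z.2.2.2.1 (up.get (2 * z.2.2.1)) >>= fun A =>
  extW z.2.2.2.2 (up.get (2 * z.2.2.1 + 1)) >>= fun A' =>
  num (r * K + ka loc z) >>= fun x => num (r * K + kb loc z) >>= fun y =>
  pure (x, y, z.2.2.1, A, A')

/-- The program for `dn`. -/
def dnP (up : Arr (List Rc)) (z : It) : M Dn :=
  extW z.2.2.2.1 (up.get (2 * z.2.2.1)) >>= fun A =>
  extW z.2.2.2.2 (up.get (2 * z.2.2.1 + 1)) >>= fun A' =>
  revW A' >>= fun x => appendP A x >>= fun w => pure (z.2.2.1, w)

/-- The end of a round. -/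
def fin (D K : ℕ) (cl : Arr ℕ) (loc : Arr (ℕ × Bool)) (up : Arr (List Rc)) (s : RS) (r : ℕ) :
    M RS :=
  foldP (pick D (intra cl) (ka loc) (kb loc)) (Arr.const 0, [], []) s.1 >>= fun k =>
  mapM' (fun z => appendP (up.get (2 * z.2.2.1)) (up.get (2 * z.2.2.1 + 1))) k.2.1 >>= fun u =>
  flattenP u >>= fun us => mapP (fun x => x.1) us >>= fun vs => cntP s.2.1 vs >>= fun use =>
  filterP (fun z => decide (ka loc z = kb loc z)) k.2.1 >>= fun L =>
  filterP (fun z => !decide (ka loc z = kb loc z)) k.2.1 >>= fun N =>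
  mapM' (dnP up) L >>= fun d => mapM' (nwP r K loc up) N >>= fun x =>
  appendP d s.2.2.2 >>= fun d' => appendP x s.2.2.1 >>= fun x' => pure (k.2.2, use, x', d')

/-- One round. -/
def rnd (bl : BlP) (pc : PcP) (P : Pm) (adj : Adj) (s : RS) (r : ℕ) : M RS :=
  tokP s.1 >>= fun tok => mapP (fun q => q.2) tok >>= fun st =>
  cntP (Arr.const 0) st >>= fun wt => bl ((P.1, P.2.2.2.1), adj, s.2.1, wt, st) >>= fun q =>
  filterP (intra q.1) s.1 >>= fun Ri => lenP Ri >>= fun x => lenP s.1 >>= fun y =>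
  if 2 * x < y then pure s else
  pc (P.2.2.1, tok, q.2) >>= fun p => fin P.2.1 P.2.2.2.2 q.1 p.1 p.2 s r

section impl
variable {α : Type} [Rep α]

@[fun_prop] theorem grow_ka {l : α → Arr (ℕ × Bool)} {z : α → It} (h : Pure l) (h' : Pure z) :
    Grow fun a => ka (l a) (z a) := by
  unfold ka ix
  fun_prop

@[fun_prop] theorem grow_kb {l : α → Arr (ℕ × Bool)} {z : α → It} (h : Pure l) (h' : Pure z) :
    Grow fun a => kb (l a) (z a) := by
  unfold kb ix
  fun_prop

@[fun_prop] theorem pure_intra {l : α → Arr ℕ} {z : α → It} (h : Pure l) (h' : Pure z) :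
    Pure fun a => intra (l a) (z a) := by
  unfold intra
  fun_prop

@[fun_prop] theorem grow_intra {l : α → Arr ℕ} {z : α → It} (h : Pure l) (h' : Pure z) :
    Grow fun a => intra (l a) (z a) := (pure_intra h h').grow

@[fun_prop] theorem impl_ext {A : α → List St} {u : α → List Rc} (h : Pure A) (h' : Pure u) :
    Impl fun a => extW (A a) (u a) := by
  unfold extW
  fun_prop

@[fun_prop] theorem impl_fin {D K r : α → ℕ} {cl : α → Arr ℕ} {loc : α → Arr (ℕ × Bool)}
    {up : α → Arr (List Rc)} {s : α → RS} (h1 : Pure D) (h2 : Pure K) (h3 : Pure cl)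
    (h4 : Pure loc) (h5 : Pure up) (h6 : Pure s) (h7 : Pure r) :
    Impl fun a => fin (D a) (K a) (cl a) (loc a) (up a) (s a) (r a) := by
  unfold fin nwP dnP pick
  fun_prop

theorem impl_rnd {bl : (ℕ × ℕ) × Adj × Arr ℕ × Arr ℕ × List ℕ → M (Arr ℕ × List Rc)}
    {pc : ℕ × List (ℕ × ℕ) × List Rc → M (Arr (ℕ × Bool) × Arr (List Rc))} (hb : Impl bl)
     (hp : Impl pc) {P : α → Pm} {adj : α → Adj}
    {s : α → RS} {r : α → ℕ} (h1 : Pure P) (h2 : Pure adj) (h3 : Pure s) (h4 : Pure r) :
    Impl fun a => rnd bl pc (P a) (adj a) (s a) (r a) := by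
  unfold rnd tokP
  fun_prop

end impl

/-! ### What the programs compute -/

variable {c : Cx}

theorem tokP_tri {R : List It} (h : ∀ z ∈ R, 2 * z.2.2.1 + 1 ≤ c.B) :
    Tri c (tokP R) fun l t => l = toks R ∧ t ≤ 5 * R.length := by
  refine (Tri_map_det (g := fun z : It => [(2 * z.2.2.1, z.1), (2 * z.2.2.1 + 1, z.2.1)]) (T := 0)
    fun z hz => by
      simp only [Tri_bind, Tri_num, Tri_pure]; exact ⟨h z hz, by simp⟩).bind ?_
  rintro _ t ⟨rfl, ht⟩
  have : (toks R).length = 2 * R.length := by simp [toks, List.length_flatMap, mul_comm]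
  simp only [Tri_flattenP, List.length_map]
  rw [← List.flatMap_def]
  exact ⟨rfl, by unfold toks at this; omega⟩

theorem ext_tri (A : List St) (u : List Rc) (Q : List St → ℕ → Prop) :
    Tri c (extW A u) Q ↔ Q (A ++ pw u) (3 * u.length + (pw u).length + A.length) := by
  simp only [extW, Tri_bind, Tri_revP, Tri_mapP, Tri_flattenP, Tri_appendP, List.length_map,
    List.length_reverse, pw]
  rw [show ∀ a b c : ℕ, a + (a + (a + b + c)) = 3 * a + b + c by intros; ring]

/-- The result of `fin`. -/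
structure Fin' (D K : ℕ) (cl : Arr ℕ) (loc : Arr (ℕ × Bool)) (up : Arr (List Rc)) (s : RS) (r : ℕ)
    (tk : List It) (s' : RS) : Prop where
  e1 : tk = (s.1.foldl (pick D (intra cl) (ka loc) (kb loc)) (Arr.const 0, [], [])).2.1
  e2 : s'.1 = (s.1.foldl (pick D (intra cl) (ka loc) (kb loc)) (Arr.const 0, [], [])).2.2
  e3 : ∀ v, s'.2.1.get v = s.2.1.get v + ((used up tk).map fun x => x.1).count v
  e4 : s'.2.2.1 = (tk.filter fun z => !decide (ka loc z = kb loc z)).map (nw (r * K) loc up) ++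
    s.2.2.1
  e5 : s'.2.2.2 = (tk.filter fun z => decide (ka loc z = kb loc z)).map (dn up) ++ s.2.2.2

theorem fin_tri {D K : ℕ} {cl : Arr ℕ} {loc : Arr (ℕ × Bool)} {up : Arr (List Rc)} {s : RS}
    {r T : ℕ} {tk : List It}
    (e : tk = (s.1.foldl (pick D (intra cl) (ka loc) (kb loc)) (Arr.const 0, [], [])).2.1)
    (hl : tk.length ≤ s.1.length)
    (h : ∀ z ∈ tk, (up.get (2 * z.2.2.1)).length ≤ T ∧ (up.get (2 * z.2.2.1 + 1)).length ≤ T ∧
      (wa up z).length ≤ T ∧ (wb up z).length ≤ T ∧ r * K + ka loc z ≤ c.B ∧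
      r * K + kb loc z ≤ c.B)
    (hu : ∀ v ∈ (used up tk).map fun x => x.1,
      s.2.1.get v + ((used up tk).map fun x => x.1).count v ≤ c.B) :
    Tri c (fin D K cl loc up s r) fun s' t => Fin' D K cl loc up s r tk s' ∧
      t ≤ (26 * T + 12) * s.1.length := by
  have hus : (used up tk).length ≤ 2 * T * tk.length := by
    rw [used, List.length_flatMap]
    refine (List.sum_le_card_nsmul _ (2 * T) ?_).trans (by simp [mul_comm])
    intro x hx
    obtain ⟨z, hz, rfl⟩ := List.mem_map.1 hx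
    have := h z hz
    simp only [List.length_append]
    omega
  unfold fin
  rw [Tri_bind, Tri_foldP, ← e]
  refine (Tri_map_det (g := fun z : It => up.get (2 * z.2.2.1) ++ up.get (2 * z.2.2.1 + 1))
    (T := T) fun z hz => by simpa using (h z hz).1).bind ?_
  rintro _ t1 ⟨rfl, h1⟩
  rw [Tri_bind, Tri_flattenP, Tri_bind, Tri_mapP, ← List.flatMap_def]
  refine (cntP_tri hu).bind ?_
  rintro use _ ⟨h2, rfl⟩
  rw [Tri_bind, Tri_filterP, Tri_bind, Tri_filterP]
  refine (Tri_map_det (g := dn up) (T := 11 * T) fun z hz => ?_).bind ?_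
  · obtain ⟨a1, a2, a3, a4, -⟩ := h z (List.mem_of_mem_filter hz)
    simp only [wa, wb, List.length_append] at a3 a4
    simp only [dnP, Tri_bind, ext_tri, Tri_revW, Tri_appendP, Tri_pure, List.length_append]
    exact ⟨rfl, by omega⟩
  rintro _ t2 ⟨rfl, h3⟩
  refine (Tri_map_det (g := nw (r * K) loc up) (T := 8 * T) fun z hz => ?_).bind ?_
  · obtain ⟨a1, a2, a3, a4, a5, a6⟩ := h z (List.mem_of_mem_filter hz)
    simp only [wa, wb, List.length_append] at a3 a4
    simp only [nwP, Tri_bind, ext_tri, Tri_num, Tri_pure]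
    exact ⟨a5, a6, rfl, by omega⟩
  rintro _ t3 ⟨rfl, h4⟩
  simp only [Tri_bind, Tri_appendP, Tri_pure, List.length_map]
  refine ⟨⟨e, rfl, h2, rfl, rfl⟩, ?_⟩
  have b1 := List.length_filter_le (fun z => decide (ka loc z = kb loc z)) tk
  have b2 := List.length_filter_le (fun z => !decide (ka loc z = kb loc z)) tk
  have b0 := hus
  unfold used at hus
  have b3 := h3.trans (Nat.mul_le_mul_left _ b1)
  have b4 := h4.trans (Nat.mul_le_mul_left _ b2)
  have b5 := Nat.mul_le_mul_left T hl
  nlinarith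

end Vale.Agent.P305R
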