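import Vale.Agent.P305R.Lev

/-!
# The router: one round keeps the invariant
-/

namespace Vale.Agent.P305R

open Vale.Agent.P305E

/-- The situation after the choice of the batch `tk`. -/
structure RC (L : LD) (B r : ℕ) (s : RS) (cl : Arr ℕ) (ord : List Rc) (dep : ℕ → ℕ)
    (loc : Arr (ℕ × Bool)) (up : Arr (List Rc)) (rt : ℕ × Bool → ℕ) (tk rest : List It) : Prop where
  ok : L.OK B
  ri : L.RI r s
  hb : Balls L.n L.rad L.cap L.adj.get s.2.1.get (fun x => (ends s.1).count x) (ends s.1) cl.get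
    ord dep
  hp : Pieces L.W (toks s.1) ord loc.get up.get rt
  perm : (tk ++ rest).Perm s.1
  int : ∀ z ∈ tk, intra cl z = true
  deg : ∀ k, tk.countP (fun z => ka loc z = k ∨ kb loc z = k) ≤ L.D
  many : s.1.length ≤ 10 * L.β * tk.length

variable {L : LD} {B r : ℕ} {s : RS} {cl : Arr ℕ} {ord : List Rc} {dep : ℕ → ℕ}
  {loc : Arr (ℕ × Bool)} {up : Arr (List Rc)} {rt : ℕ × Bool → ℕ} {tk rest : List It}

theorem LD.RI.mem (h : L.RI r s) {z : It} (hz : z ∈ s.1) : z ∈ L.R0 := by
  obtain ⟨T, hT⟩ := h.sub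
  exact hT.subset (List.mem_append_left _ hz)

namespace RC
variable (h : RC L B r s cl ord dep loc up rt tk rest)
include h

theorem mem {z : It} (hz : z ∈ tk) : z ∈ s.1 := h.perm.subset (List.mem_append_left _ hz)

theorem cls {z : It} (hz : z ∈ tk) : 2 ≤ cl.get z.1 ∧ 2 ≤ cl.get z.2.1 ∧
    cl.get z.1 = cl.get z.2.1 := by
  have := h.int z hz
  simp only [intra, decide_eq_true_eq] at this
  omega

theorem side {q : ℕ × ℕ} (hq : q ∈ toks s.1) (hc : 2 ≤ cl.get q.2) {o : ℕ} {A : List St}
    (w : Walk L.E o A (L.ρ q.2)) (i : In L.S A) (l : 2 * A.length + 1 ≤ L.g) :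
    (up.get q.1).length ≤ L.rad ∧ Walk L.E o (A ++ pw (up.get q.1)) (L.ρ (rt (loc.get q.1))) ∧
      In L.S (A ++ pw (up.get q.1)) ∧ 2 * (A ++ pw (up.get q.1)).length + 1 ≤ L.g' ∧
      ix (loc.get q.1) < L.K ∧ L.blk (loc.get q.1).1 = L.blk q.2 ∧
      ∀ x, occ x (A ++ pw (up.get q.1)) ≤
        occ x A + ((up.get q.1).map fun r => L.hs x r.1).sum := by
  obtain ⟨u1, u2, u3, -, -, -, -, -, u9⟩ := up_facts h.ok h.hb (h.hp.path q hq)
  obtain ⟨a1, -, a3⟩ := loc_facts h.ok h.hb h.hp hq
  obtain ⟨a3, a4, -⟩ := a3 hc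
  refine ⟨a4, Walk.append (a := 0) w u1, i.append u2, ?_, ?_, a1, fun x => ?_⟩
  · have := Nat.mul_le_mul_right L.g a4
    simp only [List.length_append, LD.g']
    nlinarith
  · have := h.ok.hn
    simp only [ix, LD.K, pow_succ] at this ⊢
    split_ifs <;> omega
  · rw [occ_append]
    exact Nat.add_le_add_left (u9 x) _

theorem sa {z : It} (hz : z ∈ tk) : (up.get (2 * z.2.2.1)).length ≤ L.rad ∧
    Walk L.E (L.E z.2.2.1).1 (wa up z) (L.ρ (rt (loc.get (2 * z.2.2.1)))) ∧ In L.S (wa up z) ∧
    2 * (wa up z).length + 1 ≤ L.g' ∧ ka loc z < L.K ∧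
    L.blk (loc.get (2 * z.2.2.1)).1 = L.blk z.1 ∧ ∀ x, occ x (wa up z) ≤
      occ x z.2.2.2.1 + ((up.get (2 * z.2.2.1)).map fun r => L.hs x r.1).sum :=
  have i := (h.ok.it z (h.ri.mem (h.mem hz))).2.2.2.2
  h.side (mem_toks (h.mem hz)).1 (h.cls hz).1 i.w1 i.i1 i.l1

theorem sb {z : It} (hz : z ∈ tk) : (up.get (2 * z.2.2.1 + 1)).length ≤ L.rad ∧
    Walk L.E (L.E z.2.2.1).2 (wb up z) (L.ρ (rt (loc.get (2 * z.2.2.1 + 1)))) ∧ In L.S (wb up z) ∧
    2 * (wb up z).length + 1 ≤ L.g' ∧ kb loc z < L.K ∧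
    L.blk (loc.get (2 * z.2.2.1 + 1)).1 = L.blk z.2.1 ∧ ∀ x, occ x (wb up z) ≤
      occ x z.2.2.2.2 + ((up.get (2 * z.2.2.1 + 1)).map fun r => L.hs x r.1).sum :=
  have i := (h.ok.it z (h.ri.mem (h.mem hz))).2.2.2.2
  h.side (mem_toks (h.mem hz)).2 (h.cls hz).2.1 i.w2 i.i2 i.l2

theorem used_mem {x : Rc} (hx : x ∈ used up tk) : ∃ q ∈ toks s.1, x ∈ up.get q.1 := by
  obtain ⟨z, hz, g⟩ := List.mem_flatMap.1 hx
  exact (List.mem_append.1 g).elim (fun g => ⟨_, (mem_toks (h.mem hz)).1, g⟩)
    fun g => ⟨_, (mem_toks (h.mem hz)).2, g⟩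

theorem used_lt {x : Rc} (hx : x ∈ used up tk) : x.1 < L.n ∧ s.2.1.get x.1 < L.cap := by
  obtain ⟨q, hq, g⟩ := h.used_mem hx
  have := ((up_facts h.ok h.hb (h.hp.path q hq)).2.2.2.2.2.2.1 x g).1
  have := h.hb.mem _ (h.hb.edge x this).2.1
  exact ⟨this.1, this.2.1⟩

theorem used_len : (used up tk).length ≤ 2 * L.rad * tk.length := by
  rw [used, List.length_flatMap]
  refine (List.sum_le_card_nsmul _ (2 * L.rad) ?_).trans (by simp [mul_comm])
  intro x hx
  obtain ⟨z, hz, rfl⟩ := List.mem_map.1 hx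
  have := (h.sa hz).1
  have := (h.sb hz).1
  simp only [List.length_append]
  omega

theorem used_count (v : ℕ) : ((used up tk).map fun x => x.1).count v ≤ 2 * L.D := by
  by_cases hv : v ∈ (used up tk).map fun x => x.1
  swap
  · rw [List.count_eq_zero_of_not_mem hv]
    omega
  obtain ⟨x, hx, rfl⟩ := List.mem_map.1 hv
  obtain ⟨q, hq, g⟩ := h.used_mem hx
  have one : ∀ q' ∈ toks s.1, ((up.get q'.1).map fun x => x.1).count x.1 ≤
      if ix (loc.get q'.1) = ix (loc.get q.1) then 1 else 0 := by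
    intro q' hq'
    split_ifs with e
    · exact List.nodup_iff_count_le_one.1
        (up_facts h.ok h.hb (h.hp.path q' hq')).2.2.2.2.2.2.2.1 _
    · refine (List.count_eq_zero_of_not_mem fun g' => e ?_).le
      obtain ⟨y, hy, e'⟩ := List.mem_map.1 g'
      rw [h.hp.same q' hq' q hq y hy x g e']
  rw [used, List.map_flatMap, List.count_flatMap]
  refine (sum_le_countP _ (fun z => ka loc z = ix (loc.get q.1) ∨ kb loc z = ix (loc.get q.1)) 2 _
    fun z hz => ?_).trans (Nat.mul_le_mul_left _ (h.deg _))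
  have a1 := one _ (mem_toks (h.mem hz)).1
  have a2 := one _ (mem_toks (h.mem hz)).2
  simp only [Function.comp, List.map_append, List.count_append] at a1 a2 ⊢
  rw [← ka] at a1
  rw [← kb] at a2
  split_ifs at a1 a2 ⊢ <;> omega

/-- One of the two pieces of an edge of the next level is closed. -/
theorem closed {z : It} (hz : z ∈ tk) (hne : ka loc z ≠ kb loc z) :
    let P := loc.get (2 * z.2.2.1)
    let Q := loc.get (2 * z.2.2.1 + 1)
    (P.2 = true ∨ Q.2 = true) ∧ (P.2 = false → P = (cl.get Q.1 - 2, false)) ∧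
      (Q.2 = false → Q = (cl.get P.1 - 2, false)) := by
  obtain ⟨c1, c2, c3⟩ := h.cls hz
  obtain ⟨-, a2, a3⟩ := loc_facts h.ok h.hb h.hp (mem_toks (h.mem hz)).1
  obtain ⟨-, b2, b3⟩ := loc_facts h.ok h.hb h.hp (mem_toks (h.mem hz)).2
  have a4 := (a3 c1).2.2
  have b4 := (b3 c2).2.2
  simp only at a2 b2 a4 b4
  refine ⟨?_, fun g => by rw [b2, ← c3]; exact a4 g, fun g => by rw [a2, c3]; exact b4 g⟩
  by_contra g
  simp only [not_or, Bool.not_eq_true] at g
  exact hne (by rw [ka, kb, a4 g.1, b4 g.2, c3])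

theorem new_blk (x : ℕ) : L.β * ((tk.filter fun z => !decide (ka loc z = kb loc z)).countP
    fun z => L.blk z.1 = x) ≤ 2 * L.Mb := by
  have a1 := big_card h.hp (fun v => L.blk v = x) fun q hq g => by
    rw [← (loc_facts h.ok h.hb h.hp hq).1, g]
  set T := big (toks s.1) loc.get fun v => L.blk v = x with hT
  obtain ⟨T0, h0⟩ := h.ri.sub
  have a2 : (s.1.countP fun z => L.blk z.1 = x) ≤ L.Mb := by
    refine le_trans ?_ (h.ok.blkc x)
    rw [← h0.countP_eq, List.countP_append]
    omega
  have a3 : (s.1.countP fun z => L.blk z.2.1 = x) = s.1.countP fun z => L.blk z.1 = x :=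
    List.countP_congr fun z hz => by simp [(h.ok.it z (h.ri.mem hz)).2.2.2.1]
  rw [countP_toks (fun q => L.blk q.2 = x)] at a1
  have a4 : ((tk.filter fun z => !decide (ka loc z = kb loc z)).countP fun z => L.blk z.1 = x) ≤
      T.card * L.D := by
    calc _ ≤ tk.countP fun z => loc.get (2 * z.2.2.1) ∈ T ∨ loc.get (2 * z.2.2.1 + 1) ∈ T := by
          rw [List.countP_filter]
          refine List.countP_mono_left fun z hz g => ?_
          simp only [Bool.and_eq_true, decide_eq_true_eq, Bool.not_eq_true',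
            decide_eq_false_iff_not] at g
          have e := (h.ok.it z (h.ri.mem (h.mem hz))).2.2.2.1
          simp only [hT, big, Finset.mem_filter, List.mem_toFinset, List.mem_map,
            decide_eq_true_eq]
          exact (h.closed hz g.2).1.imp
            (fun k => ⟨⟨_, (mem_toks (h.mem hz)).1, rfl⟩, k, (h.sa hz).2.2.2.2.2.1.trans g.1⟩)
            fun k => ⟨⟨_, (mem_toks (h.mem hz)).2, rfl⟩, k,
              (h.sb hz).2.2.2.2.2.1.trans (e ▸ g.1)⟩
      _ ≤ _ := by
          refine (countP_mem_le (fun z : It => loc.get (2 * z.2.2.1))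
            (fun z => loc.get (2 * z.2.2.1 + 1)) T tk).trans
            (Finset.sum_le_card_nsmul _ _ _ fun P _ => le_trans ?_ (h.deg (ix P)))
          refine List.countP_mono_left fun z _ g => ?_
          simp only [decide_eq_true_eq] at g ⊢
          exact g.imp (congrArg ix) (congrArg ix)
  have := Nat.mul_le_mul_left L.β a4
  simp only [LD.W] at a1
  nlinarith

theorem new_vs (o : ℕ) : ∃ V : Finset ℕ, (∀ x ∈ ends ((tk.filter fun z =>
    !decide (ka loc z = kb loc z)).map (nw o loc up)), x ∈ V) ∧ L.D * V.card ≤ 40 * tk.length := by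
  have a1 := big_card h.hp (fun _ => True) fun _ _ _ => trivial
  set T := big (toks s.1) loc.get fun _ => True with hT
  refine ⟨(T ∪ T.image fun P => (cl.get P.1 - 2, false)).image fun P => o + ix P, ?_, ?_⟩
  · intro x hx
    obtain ⟨_, hy, e⟩ := of_ends.1 hx
    obtain ⟨z, hz, rfl⟩ := List.mem_map.1 hy
    obtain ⟨hz, hne⟩ := List.mem_filter.1 hz
    obtain ⟨c1, c2, c3⟩ := h.closed hz (by simpa using hne)
    have m : ∀ q ∈ toks s.1, (loc.get q.1).2 = true → loc.get q.1 ∈ T := fun q hq g => by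
      simp only [hT, big, Finset.mem_filter, List.mem_toFinset, List.mem_map]
      exact ⟨⟨q, hq, rfl⟩, g, trivial⟩
    have m1 := m _ (mem_toks (h.mem hz)).1
    have m2 := m _ (mem_toks (h.mem hz)).2
    simp only at m1 m2
    rcases e with rfl | rfl
    · refine Finset.mem_image.2 ⟨loc.get (2 * z.2.2.1), Finset.mem_union.2 ?_, rfl⟩
      cases g : (loc.get (2 * z.2.2.1)).2
      · exact .inr (Finset.mem_image.2 ⟨_, m2 (by simpa [g] using c1), (c2 g).symm⟩)
      · exact .inl (m1 g)
    · refine Finset.mem_image.2 ⟨loc.get (2 * z.2.2.1 + 1), Finset.mem_union.2 ?_, rfl⟩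
      cases g : (loc.get (2 * z.2.2.1 + 1)).2
      · exact .inr (Finset.mem_image.2 ⟨_, m1 (by simpa [g] using c1), (c3 g).symm⟩)
      · exact .inl (m2 g)
  · have a2 : ((T ∪ T.image fun P => (cl.get P.1 - 2, false)).image fun P => o + ix P).card ≤
        2 * T.card := by
      refine Finset.card_image_le.trans ((Finset.card_union_le _ _).trans ?_)
      have := Finset.card_image_le (s := T) (f := fun P => (cl.get P.1 - 2, false))
      omega
    have a3 := a1.trans (List.countP_le_length.trans (length_toks _).le)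
    have a4 : L.D * T.card ≤ 20 * tk.length := by
      refine Nat.le_of_mul_le_mul_left ?_ (show 0 < L.β by have := h.ok.hβ; omega)
      have := h.many
      simp only [LD.W] at a3
      nlinarith
    have := Nat.mul_le_mul_left L.D a2
    nlinarith

theorem new_occ (o x : ℕ) :
    oc x ((tk.filter fun z => !decide (ka loc z = kb loc z)).map (nw o loc up)) +
      od x ((tk.filter fun z => decide (ka loc z = kb loc z)).map (dn up)) ≤
    oc x tk + ((used up tk).map fun r => L.hs x r.1).sum := by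
  have : ∀ l : List It, (∀ z ∈ l, z ∈ tk) →
      oc x ((l.filter fun z => !decide (ka loc z = kb loc z)).map (nw o loc up)) +
        od x ((l.filter fun z => decide (ka loc z = kb loc z)).map (dn up)) ≤
      oc x l + ((used up l).map fun r => L.hs x r.1).sum := by
    intro l hl
    induction l with
    | nil => simp [oc, od]
    | cons z l ih =>
      have i := ih fun y hy => hl y (by simp [hy])
      have a := (h.sa (hl z (by simp))).2.2.2.2.2.2 x
      have b := (h.sb (hl z (by simp))).2.2.2.2.2.2 x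
      simp only [oc, od, used] at i ⊢
      by_cases e : ka loc z = kb loc z <;>
        simp only [List.filter_cons, e, decide_true, decide_false, Bool.not_true, Bool.not_false,
          if_true, Bool.false_eq_true, if_false, List.map_cons, List.sum_cons, List.flatMap_cons,
          List.map_append, List.sum_append, nw, dn, occ_append, occ_rev] at i ⊢ <;> omega
  exact this tk fun _ h => h

theorem step {s' : RS} (e2 : s'.1 = rest)
    (e3 : ∀ v, s'.2.1.get v = s.2.1.get v + ((used up tk).map fun x => x.1).count v)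
    (e4 : s'.2.2.1 = (tk.filter fun z => !decide (ka loc z = kb loc z)).map
      (nw (r * L.K) loc up) ++ s.2.2.1)
    (e5 : s'.2.2.2 = (tk.filter fun z => decide (ka loc z = kb loc z)).map (dn up) ++ s.2.2.2) :
    L.RI (r + 1) s' := by
  have hl : tk.length + rest.length = s.1.length := by
    rw [← h.perm.length_eq, List.length_append]
  have hK : 0 < L.K := by unfold LD.K; positivity
  have hb' : ∀ P : ℕ × Bool, ix P < L.K → L.blk' (r * L.K + ix P) = Nat.pair r (L.blk P.1) := by
    intro P hP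
    rw [LD.blk', mul_comm, Nat.mul_add_div hK, Nat.mul_add_mod, Nat.div_eq_of_lt hP,
      Nat.mod_eq_of_lt hP, ix_div, add_zero]
  obtain ⟨ρ', hρ⟩ := h.ri.nxt
  refine ⟨?_, ?_, fun v => ?_, ?_, fun x => ?_, ?_, fun y => ?_, ?_, fun d hd => ?_, ?_⟩
  · obtain ⟨T, hT⟩ := h.ri.sub
    refine ⟨tk ++ T, List.Perm.trans ?_ hT⟩
    rw [e2, ← List.append_assoc]
    exact (List.perm_append_comm.trans h.perm).append_right _
  · refine List.Perm.trans ?_ h.ri.ids
    have a1 := (List.filter_append_perm (fun z => decide (ka loc z = kb loc z)) tk).map nm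
    have a2 := h.perm.map nm
    rw [e2, e4, e5, List.perm_iff_count]
    intro k
    have b1 := a1.count_eq k
    have b2 := a2.count_eq k
    have c1 : nm ∘ nw (r * L.K) loc up = nm := rfl
    have c2 : Prod.fst ∘ dn up = nm := rfl
    simp only [List.map_append, List.count_append, List.map_map, c1, c2] at b1 b2 ⊢
    omega
  · rw [e3]
    by_cases hv : v ∈ (used up tk).map fun x => x.1
    · obtain ⟨x, hx, rfl⟩ := List.mem_map.1 hv
      have := (h.used_lt hx).2
      have := h.used_count x.1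
      omega
    · rw [List.count_eq_zero_of_not_mem hv]
      exact h.ri.use v
  · have a1 := h.ri.tot
    have a2 := h.used_len
    have a3 := List.countP_le_length (p := fun x => decide (x ∈ Finset.range L.n))
      (l := (used up tk).map fun x => x.1)
    simp only [e2, e3, Finset.sum_add_distrib, sum_count, List.length_map] at a3 ⊢
    rw [← hl] at a1
    nlinarith
  · have a1 := h.ri.occ x
    have a2 := h.new_occ (r * L.K) x
    have a3 := oc_perm (x := x) h.perm
    simp only [e2, e3, e4, e5, oc_append, od_append, add_mul, Finset.sum_add_distrib] at a3 ⊢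
    rw [sum_weight (fun x : Rc => x.1) (L.hs x) _ fun y hy => (h.used_lt hy).1]
    omega
  · refine ⟨fun v => if v < r * L.K then ρ' v else
      L.ρ (rt ((v - r * L.K) / 2, decide ((v - r * L.K) % 2 = 1))), fun z hz => ?_⟩
    have un : ∀ P : ℕ × Bool, (ix P / 2, decide (ix P % 2 = 1)) = P := by
      rintro ⟨x, a⟩
      cases a <;> simp [ix] <;> omega
    rw [e4] at hz
    rcases List.mem_append.1 hz with hz | hz
    · obtain ⟨y, hy, rfl⟩ := List.mem_map.1 hz
      have hy := List.mem_of_mem_filter hy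
      obtain ⟨-, a2, a3, a4, a5, a6, -⟩ := h.sa hy
      obtain ⟨-, b2, b3, b4, b5, b6, -⟩ := h.sb hy
      refine ⟨⟨?_, ?_, a3, b3, a4, b4⟩, by simp only [nw]; nlinarith, by simp only [nw]; nlinarith,
        ?_⟩
      · simpa [nw, ka, un] using a2
      · simpa [nw, kb, un] using b2
      · simp only [nw, ka, kb]
        rw [hb' _ a5, hb' _ b5, a6, b6, (h.ok.it y (h.ri.mem (h.mem hy))).2.2.2.1]
    · obtain ⟨a1, a2, a3, a4⟩ := hρ z hz
      refine ⟨⟨?_, ?_, a1.i1, a1.i2, a1.l1, a1.l2⟩, by nlinarith, by nlinarith, a4⟩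
      · simpa [a2] using a1.w1
      · simpa [a3] using a1.w2
  · rw [e4, List.countP_append, List.countP_map]
    by_cases g : y.unpair.1 = r
    · have a1 : (s.2.2.1.countP fun z => L.blk' z.1 = y) = 0 := by
        refine List.countP_eq_zero.2 fun z hz e => ?_
        have := (Nat.div_lt_iff_lt_mul hK).2 (hρ z hz).2.1
        simp only [decide_eq_true_eq] at e
        rw [← e, LD.blk', Nat.unpair_pair] at g
        omega
      rw [a1, add_zero]
      refine le_trans (Nat.mul_le_mul_left _ (List.countP_mono_left fun z hz e => ?_))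
        (h.new_blk y.unpair.2)
      have a := h.sa (List.mem_of_mem_filter hz)
      have e' : L.blk' (r * L.K + ix (loc.get (2 * z.2.2.1))) = y := of_decide_eq_true e
      rw [decide_eq_true_eq, ← e', hb' _ a.2.2.2.2.1, Nat.unpair_pair, a.2.2.2.2.2.1]
    · rw [List.countP_eq_zero.2 fun z hz e => ?_, zero_add]
      · exact h.ri.blk y
      have a := h.sa (List.mem_of_mem_filter hz)
      have e' : L.blk' (r * L.K + ix (loc.get (2 * z.2.2.1))) = y := of_decide_eq_true e
      rw [← e', hb' _ a.2.2.2.2.1, Nat.unpair_pair] at g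
      exact g rfl
  · obtain ⟨V, v1, v2⟩ := h.ri.vs
    obtain ⟨V', w1, w2⟩ := h.new_vs (r * L.K)
    refine ⟨V' ∪ V, fun x hx => ?_, ?_⟩
    · rw [e4, ends_append, List.mem_append] at hx
      exact Finset.mem_union.2 (hx.imp (w1 x) (v1 x))
    · have := Nat.mul_le_mul_left L.D (Finset.card_union_le V' V)
      rw [e2]
      nlinarith
  · rw [e5] at hd
    rcases List.mem_append.1 hd with hd | hd
    · obtain ⟨y, hy, rfl⟩ := List.mem_map.1 hd
      obtain ⟨hy, e⟩ := List.mem_filter.1 hy
      obtain ⟨-, a2, a3, a4, -⟩ := h.sa hy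
      obtain ⟨-, b2, b3, b4, -⟩ := h.sb hy
      rw [← ix_inj (of_decide_eq_true e)] at b2
      exact ⟨Walk.append (a := 0) a2 b2.rev, a3.append b3.rev, by
        simp only [dn, List.length_append, length_rev]; omega⟩
    · exact h.ri.dn d hd
  · rw [e2]
    refine h.ri.size.imp (fun g => le_trans (Nat.mul_le_mul_left _ (by omega)) g) fun g => ?_
    have hβ : (2 : ℝ) ≤ L.β := by exact_mod_cast h.ok.hβ
    have a1 : (s.1.length : ℝ) ≤ 10 * L.β * tk.length := by exact_mod_cast h.many
    have a2 : (tk.length : ℝ) + rest.length = s.1.length := by exact_mod_cast hl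
    have a3 : (s.1.length : ℝ) * (1 / (10 * L.β)) ≤ tk.length := by
      rw [mul_one_div, div_le_iff₀ (by positivity)]
      linarith
    have a4 : (0 : ℝ) ≤ 1 - 1 / (10 * L.β) := by
      rw [sub_nonneg, div_le_one (by positivity)]
      linarith
    rw [pow_succ, ← mul_assoc]
    refine le_trans ?_ (mul_le_mul_of_nonneg_right g a4)
    linarith

end RC

end Vale.Agent.P305R
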