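import Vale.Agent.P305R.Round

/-!
# The router: all rounds of a level
-/

namespace Vale.Agent.P305R

open Vale.Agent.P305E

variable {c : Cx} {L : LD} {r : ℕ} {s : RS}

theorem LD.RI.stop (h : L.RI r s)
    (hs : L.D * s.1.length ≤ 4 * (L.D * L.Y + 2 * L.R0.length)) : L.RI (r + 1) s := by
  obtain ⟨ρ', hρ⟩ := h.nxt
  refine ⟨h.sub, h.ids, h.use, h.tot, h.occ, ⟨ρ', fun z hz => ?_⟩, h.blk, h.vs, h.dn, .inl hs⟩
  obtain ⟨a1, a2, a3, a4⟩ := hρ z hz
  exact ⟨a1, by nlinarith, by nlinarith, a4⟩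

theorem fin_step {cl : Arr ℕ} {ord : List Rc} {dep : ℕ → ℕ} {loc : Arr (ℕ × Bool)}
    {up : Arr (List Rc)} {rt : ℕ × Bool → ℕ} (h : L.OK c.B) (hr : (r + 1) * L.K ≤ c.B)
    (hI : L.RI r s) (hb : Balls L.n L.rad L.cap L.adj.get s.2.1.get (fun x => (ends s.1).count x)
      (ends s.1) cl.get ord dep) (hp : Pieces L.W (toks s.1) ord loc.get up.get rt)
    (hs : s.1.length ≤ 2 * (s.1.filter (intra cl)).length) :
    Tri c (fin L.D L.K cl loc up s r) fun s' t => L.RI (r + 1) s' ∧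
      t ≤ (26 * L.g' + 12) * s.1.length := by
  have hW : 2 * L.D ≤ L.W := by have := h.hβ; unfold LD.W; nlinarith
  have hg : 2 * L.rad + 1 ≤ L.g' := Nat.le_mul_of_pos_left _ h.hg
  obtain ⟨p1, p2, p3, p4⟩ := pick_spec (D := L.D) (C := 2 * L.W) (intra cl) (ka loc) (kb loc) s.1
    fun k => by
      refine (countP_or_le _ _ _).trans
        (le_trans (countP_toks (fun q => ix (loc.get q.1) = k) s.1).ge ?_)
      by_cases g : ∃ P, ix P = k
      · obtain ⟨P, rfl⟩ := g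
        refine le_trans (List.countP_mono_left fun q _ g => ?_) (hp.small P)
        exact decide_eq_true (ix_inj (of_decide_eq_true g))
      · rw [List.countP_eq_zero.2 fun q _ e => g ⟨_, of_decide_eq_true e⟩]
        omega
  have hc : RC L c.B r s cl ord dep loc up rt _ _ := ⟨h, hI, hb, hp, p1, p2, p3, by
    refine Nat.le_of_mul_le_mul_left ?_ h.hD
    rw [List.countP_eq_length_filter] at p4
    have a1 := Nat.mul_le_mul_left L.D hs
    have a3 : L.D + 2 * (2 * L.W) ≤ 5 * L.W := by omega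
    have a4 := p4.trans (Nat.mul_le_mul_right _ a3)
    unfold LD.W at a4
    nlinarith⟩
  refine (fin_tri (T := L.g') rfl ?_ (fun z hz => ?_) fun v hv => ?_).mono ?_
  · rw [← p1.length_eq, List.length_append]
    omega
  · obtain ⟨a1, -, -, a4, a5, -⟩ := hc.sa hz
    obtain ⟨b1, -, -, b4, b5, -⟩ := hc.sb hz
    rw [add_mul] at hr
    exact ⟨by omega, by omega, by omega, by omega, by omega, by omega⟩
  · obtain ⟨x, hx, rfl⟩ := List.mem_map.1 hv
    have := (hc.used_lt hx).2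
    have := hc.used_count x.1
    have := h.b3
    omega
  rintro s' t4 ⟨⟨-, e2, e3, e4, e5⟩, h5⟩
  exact ⟨hc.step e2 e3 e4 e5, h5⟩

theorem rnd_tri {bl : BlP} {pc : PcP}
    (hbl : ∀ (b cap n D : ℕ) (adj : Adj) (use wt : Arr ℕ) (st : List ℕ),
      (∀ u, ∀ p ∈ adj.get u, p.1 < n ∧ ∃ w, (u, w) ∈ adj.get p.1) →
      (∀ u, (adj.get u).length ≤ D) → (∀ s ∈ st, s < n ∧ 1 ≤ wt.get s) →
      ∑ v ∈ Finset.range n, wt.get v ≤ 2 ^ (b + 1) → n ≤ 2 ^ (b + 1) → 2 ^ (b + 5) ≤ c.B →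
      Tri c (bl ((b, cap), adj, use, wt, st)) fun r t =>
        (∃ dep, Balls n (6 * (b + 1)) cap adj.get use.get wt.get st r.1.get r.2 dep) ∧
        t ≤ 40 * (D + b + 1) * (n + st.length + 1))
    (hpc : ∀ (W : ℕ) (tok : List (ℕ × ℕ)) (ord : List Rc), (tok.map Prod.fst).Nodup →
      (∀ x, (tok.map Prod.snd).count x < W) → Fo ord → 2 * W ≤ c.B →
      Tri c (pc (W, tok, ord)) fun r t => (∃ rt, Pieces W tok ord r.1.get r.2.get rt) ∧
        t ≤ 20 * (W + 1) * (ord.length + tok.length + 1))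
    (h : L.OK c.B) (hr : (r + 1) * L.K ≤ c.B) (hI : L.RI r s) :
    Tri c (rnd bl pc L.pm L.adj s r) fun s' t => L.RI (r + 1) s' ∧
      t + 1 ≤ 300 * (L.W + L.g') * (L.n + L.R0.length + 1) := by
  obtain ⟨T, hT⟩ := hI.sub
  have hlen : s.1.length ≤ L.R0.length := by
    rw [← hT.length_eq, List.length_append]
    omega
  have hdeg : ∀ x, (ends s.1).count x ≤ L.D := fun x => (count_ends_le hT x).trans (h.deg x)
  have hm := h.hm
  have hb1 := h.b1
  have hW : 2 * L.D ≤ L.W := by have := h.hβ; unfold LD.W; nlinarith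
  have hD := h.hD
  have hb2 := h.b2
  have hg : 2 * L.rad + 1 ≤ L.g' := Nat.le_mul_of_pos_left _ h.hg
  have hrad : L.rad = 6 * (L.b + 1) := rfl
  have hpow : 2 ^ (L.b + 5) = 32 * 2 ^ L.b := by ring
  have hn : ∀ x ∈ ends s.1, x < L.n := by
    intro x hx
    obtain ⟨z, hz, e⟩ := of_ends.1 hx
    have := h.it z (hI.mem hz)
    omega
  unfold rnd
  refine (tokP_tri fun z hz => (h.it z (hI.mem hz)).2.2.1).bind ?_
  rintro _ t1 ⟨rfl, h1⟩
  rw [Tri_bind, Tri_mapP, toks_snd]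
  refine (cntP_tri fun x _ => by have := hdeg x; simp only [Arr.get_const]; omega).bind ?_
  rintro wt _ ⟨h2, rfl⟩
  have ew : wt.get = fun x => (ends s.1).count x := funext fun x => by simp [h2]
  refine (hbl L.b L.cap L.n L.D L.adj s.2.1 wt (ends s.1) h.a1 h.a2
    (fun x hx => ⟨hn x hx, by rw [ew]; exact List.count_pos_iff.2 hx⟩) ?_ h.hn h.b1).bind ?_
  · rw [ew, sum_count]
    refine List.countP_le_length.trans ?_
    rw [length_ends, pow_succ]
    omega
  rintro ⟨cl, ord⟩ t2 ⟨⟨dep, hb⟩, h3⟩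
  rw [ew] at hb
  have f1 := List.length_filter_le (intra cl) s.1
  have ho : ord.length ≤ L.n := by
    have := (List.subperm_of_subset hb.fo.nd (l₂ := List.range L.n) fun v hv => by
      obtain ⟨x, hx, rfl⟩ := List.mem_map.1 hv
      exact List.mem_range.2 (hb.mem _ (hb.edge x hx).2.1).1).length_le
    simpa using this
  simp only [Tri_bind, Tri_filterP, Tri_lenP, Tri_ite, Tri_pure, length_toks, length_ends] at h3 ⊢
  set X := L.n + L.R0.length + 1 with hX
  have k1 : t2 ≤ 80 * ((L.W + L.g') * X) := by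
    refine h3.trans ?_
    have : (L.D + L.b + 1) * (L.n + 2 * s.1.length + 1) ≤ (L.W + L.g') * (2 * X) :=
      Nat.mul_le_mul (by omega) (by omega)
    nlinarith
  have k2 : X ≤ (L.W + L.g') * X := Nat.le_mul_of_pos_left _ (by omega)
  refine ⟨by omega, by omega, fun hs => ⟨hI.stop (stop_size h hT hb ?_ hs), ?_⟩, fun hs => ?_⟩
  · have := hI.tot
    omega
  · rw [mul_assoc]
    omega
  refine (hpc L.W (toks s.1) ord (toks_nodup ?_) (fun x => ?_) hb.fo h.b2).mono ?_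
  · have := (hT.map nm).nodup_iff.2 h.nd
    rw [List.map_append] at this
    exact this.of_append_left
  · have := hdeg x
    rw [← toks_snd] at this
    exact lt_of_le_of_lt this (by omega)
  rintro ⟨loc, up⟩ t3 ⟨⟨rt, hp⟩, h4⟩
  refine (fin_step h hr hI hb hp (not_lt.1 hs)).mono ?_
  rintro s' t4 ⟨h6, h5⟩
  refine ⟨h6, ?_⟩
  have k3 : t3 ≤ 80 * ((L.W + L.g') * X) := by
    refine h4.trans ?_
    have : (L.W + 1) * (ord.length + (toks s.1).length + 1) ≤ (L.W + L.g') * (2 * X) :=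
      Nat.mul_le_mul (by omega) (by rw [length_toks]; omega)
    nlinarith
  have k4 : t4 ≤ 38 * ((L.W + L.g') * X) := by
    refine h5.trans ?_
    have : (26 * L.g' + 12) * s.1.length ≤ (38 * (L.W + L.g')) * X :=
      Nat.mul_le_mul (by omega) (by omega)
    nlinarith
  rw [mul_assoc]
  omega

theorem shrink {m b β : ℕ} (hβ : 2 ≤ β) (hm : m ≤ 2 ^ b) :
    (m : ℝ) * (1 - 1 / (10 * β)) ^ (10 * β * (b + 1)) < 1 := by
  have hβ' : (2 : ℝ) ≤ β := by exact_mod_cast hβ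
  have a0 : (0 : ℝ) ≤ 1 - 1 / (10 * β) := by
    rw [sub_nonneg, div_le_one (by positivity)]
    linarith
  have a1 : (1 - 1 / (10 * β) : ℝ) ^ (10 * β) ≤ 1 / 2 := by
    have := Real.one_sub_le_exp_neg (1 / (10 * β) : ℝ)
    refine (pow_le_pow_left₀ a0 this _).trans ?_
    rw [← Real.exp_nat_mul, show ((10 * β : ℕ) : ℝ) * -(1 / (10 * β)) = -1 by
      push_cast; field_simp, Real.exp_neg, one_div]
    exact inv_anti₀ (by norm_num) (by linarith [Real.add_one_le_exp 1])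
  have a2 : (m : ℝ) ≤ 2 ^ b := by exact_mod_cast hm
  rw [pow_mul]
  calc _ ≤ (2 : ℝ) ^ b * (1 / 2) ^ (b + 1) :=
        mul_le_mul a2 (pow_le_pow_left₀ (by positivity) a1 _) (by positivity) (by positivity)
    _ = 1 / 2 := by rw [pow_succ, ← mul_assoc, ← mul_pow]; norm_num
    _ < 1 := by norm_num

theorem rounds : ROUNDS := by
  obtain ⟨bl, ib, hbl⟩ := balls
  obtain ⟨pc, ip, hpc⟩ := pieces
  refine ⟨fun x => iterM (rnd bl pc x.2.1 x.2.2.1) (x.2.2.2.1, Arr.const 0, [], x.2.2.2.2) x.1,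
    Impl.iterM (impl_rnd ib ip (by fun_prop) (by fun_prop) (by fun_prop) (by fun_prop))
      (by fun_prop) (by fun_prop), fun c L T h hT hB => ?_⟩
  refine (Tri.iterM (fun r s t => L.RI r s ∧
    t ≤ r * (300 * (L.W + L.g') * (L.n + L.R0.length + 1))) ⟨?_, by simp⟩ ?_).mono ?_
  · exact ⟨⟨[], by simp⟩, by simp, by simp, by simp, fun x => by simp [oc], ⟨id, by simp⟩, by simp,
      ⟨∅, by simp [ends]⟩, h.dn, .inr (by simp)⟩
  · rintro r s t hr ⟨h1, h2⟩
    refine (rnd_tri (hbl c) (hpc c) h ((Nat.mul_le_mul_right _ hr).trans hB) h1).mono ?_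
    rintro s' t' ⟨h3, h4⟩
    exact ⟨h3, by nlinarith⟩
  · rintro s t ⟨h1, h2⟩
    refine ⟨h1, h1.size.elim id fun g => ?_, by nlinarith⟩
    have : s.1.length < 1 := by
      exact_mod_cast g.trans_lt (hT ▸ shrink h.hβ h.hm)
    rw [Nat.lt_one_iff.1 this]
    omega

end Vale.Agent.P305R
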