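import Vale.Agent.P305R.Rounds
import Vale.Agent.P305R.Level
import Vale.Agent.P305R.Main

/-!
# The router
-/

namespace Vale.Agent.P305R

/-- **The router.** -/
theorem route : ROUTE := main (level rounds)

end Vale.Agent.P305R
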